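import Crest.Agent.R39.Lin

/-! Cubic bipartite planar maps as three matchings with a labelling of the corners by faces. -/

set_option autoImplicit false
set_option linter.unusedSectionVars false

namespace Crest.Agent.R39

open Finset

/-- black vertices `B`, white vertices `W`, faces `V`; `m i` is the matching of edges of type `i`,
`p b j` the face of colour `j` at the black vertex `b` -/
structure Tri (B W V : Type) where
  /-- the three matchings -/
  m : Fin 3 → B ≃ W
  /-- the faces at a black vertex -/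
  p : B → Fin 3 → V

theorem f3_ne1 : ∀ i : Fin 3, i + 1 ≠ i := by decide
theorem f3_ne2 : ∀ i : Fin 3, i + 2 ≠ i := by decide
theorem f3_ne12 : ∀ i : Fin 3, i + 1 ≠ i + 2 := by decide
theorem f3_cases : ∀ i j : Fin 3, i ≠ j → i = j + 1 ∨ i = j + 2 := by decide
theorem f3_third : ∀ i j : Fin 3, ∃ k, k ≠ i ∧ k ≠ j := by decide
theorem f3_11 : ∀ i : Fin 3, i + 1 + 1 = i + 2 := by decide
theorem f3_12 : ∀ i : Fin 3, i + 1 + 2 = i := by decide
theorem f3_21 : ∀ i : Fin 3, i + 2 + 1 = i := by decide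
theorem f3_22 : ∀ i : Fin 3, i + 2 + 2 = i + 1 := by decide

theorem exists_finset {β : Type} [Fintype β] (q : β → Prop) :
    ∃ I : Finset β, ∀ e, e ∈ I ↔ q e := by
  classical
  exact ⟨univ.filter q, fun e => by simp⟩

namespace Tri

variable {B W V : Type} (T : Tri B W V)

/-- faces are invariant -/
def Inv : Prop :=
  ∀ i i' j b b', i ≠ j → i' ≠ j → T.m i b = T.m i' b' → T.p b j = T.p b' j

/-- every face occurs -/
def Surj : Prop := ∀ v, ∃ b j, T.p b j = v

/-- connectivity -/
def Conn : Prop := ∀ (f : B → Prop) (g : W → Prop), (∀ b i, f b ↔ g (T.m i b)) →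
  ∀ b b', f b → f b'

/-- the edge cut of a vertex set -/
def cutSet [Fintype B] [DecidableEq B] [DecidableEq W] (SB : Finset B) (SW : Finset W) :
    Finset (B × Fin 3) :=
  univ.filter (fun e => ¬ (e.1 ∈ SB ↔ T.m e.2 e.1 ∈ SW))

/-- a 3-edge-connected planar map -/
structure Ok [Fintype B] [Fintype W] [Fintype V] [DecidableEq B] [DecidableEq W] : Prop where
  inv : T.Inv
  col : ∀ b b' j j', T.p b j = T.p b' j' → j = j'
  surj : T.Surj
  euler : Fintype.card V = Fintype.card B + 2
  cut : ∀ (SB : Finset B) (SW : Finset W), (SB.Nonempty ∨ SW.Nonempty) →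
    (SB ≠ univ ∨ SW ≠ univ) → 3 ≤ (T.cutSet SB SW).card

/-- the edges of type `c b` form a perfect matching with connected complement -/
def Ham (c : B → Fin 3) : Prop :=
  Function.Bijective (fun b => T.m (c b) b) ∧
    ∀ (f : B → Prop) (g : W → Prop), (∀ b i, i ≠ c b → (f b ↔ g (T.m i b))) →
      ∀ b b', f b → f b'

/-- Tutte matchings -/
structure TM (b0 : B) (c0 : Fin 3) (α : B → Fin 3) : Prop where
  inj : Function.Injective (fun b => T.p b (α b))
  root : α b0 = c0
  ne : ∀ b j, j ≠ c0 → T.p b (α b) ≠ T.p b0 j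

/-- pairs of disjoint Tutte matchings -/
structure State (b0 : B) (c0 : Fin 3) (α σ : B → Fin 3) : Prop where
  ha : T.TM b0 c0 α
  hs : T.TM b0 c0 σ
  ne : ∀ b, b ≠ b0 → α b ≠ σ b

variable {T}

theorem Conn.eq {α : Type} (h : T.Conn) (f : B → α) (g : W → α) (hfg : ∀ b i, f b = g (T.m i b))
    (b b' : B) : f b = f b' :=
  h (fun x => f b = f x) (fun w => f b = g w) (fun x i => by rw [hfg x i]) b b' rfl

theorem Conn.eqW {α : Type} (h : T.Conn) (g : W → α)
    (hg : ∀ b j, g (T.m (j + 1) b) = g (T.m (j + 2) b)) (w w' : W) : g w = g w' := by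
  have h1 : ∀ b i, g (T.m 0 b) = g (T.m i b) := by
    intro b i
    have e1 : g (T.m 0 b) = g (T.m 1 b) := hg b 2
    have e2 : g (T.m 2 b) = g (T.m 0 b) := hg b 1
    fin_cases i
    · rfl
    · exact e1
    · exact e2.symm
  have := h.eq (fun b => g (T.m 0 b)) g h1 ((T.m 0).symm w) ((T.m 0).symm w')
  simpa using this

theorem Conn.eqV {α : Type} (h : T.Conn) (hi : T.Inv) (hs : T.Surj) (F : V → α)
    (hF : ∀ b i, F (T.p b (i + 1)) = F (T.p b (i + 2))) (v v' : V) : F v = F v' := by
  have h1 : ∀ b j, F (T.p b j) = F (T.p b 0) := by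
    intro b j
    have e1 : F (T.p b 0) = F (T.p b 1) := hF b 2
    have e2 : F (T.p b 2) = F (T.p b 0) := hF b 1
    fin_cases j
    · rfl
    · exact e1.symm
    · exact e2
  obtain ⟨b, j, rfl⟩ := hs v
  obtain ⟨b', j', rfl⟩ := hs v'
  rw [h1, h1 b']
  refine h.eq (fun b => F (T.p b 0)) (fun w => F (T.p ((T.m 0).symm w) 0)) (fun x i => ?_) b b'
  obtain ⟨k, hk1, hk2⟩ := f3_third i 0
  show F (T.p x 0) = F (T.p ((T.m 0).symm (T.m i x)) 0)
  rw [← h1 x k, ← h1 _ k, hi i 0 k x ((T.m 0).symm (T.m i x)) hk1.symm hk2.symm (by simp)]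

section Fin

variable [Fintype B] [Fintype W] [Fintype V] [DecidableEq B] [DecidableEq W] [DecidableEq V]

omit [DecidableEq V] in
theorem Ok.conn (h : T.Ok) : T.Conn := by
  classical
  intro f g hfg b b' hb
  by_contra hb'
  have := h.cut (univ.filter f) (univ.filter g) (Or.inl ⟨b, by simpa using hb⟩)
    (Or.inl fun e => hb' (by simpa using (eq_univ_iff_forall.1 e b')))
  have h0 : T.cutSet (univ.filter f) (univ.filter g) = ∅ := by
    ext e
    simp [cutSet, hfg e.1 e.2]
  rw [h0] at this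
  simp at this

omit [Fintype V] [DecidableEq B] [DecidableEq W] [DecidableEq V] in
theorem card_W (T : Tri B W V) : Fintype.card W = Fintype.card B :=
  (Fintype.card_congr (T.m 0)).symm

omit [Fintype W] [Fintype V] [DecidableEq W] [DecidableEq V] in
theorem sum_fst {M : Type} [AddCommMonoid M] (b : B) (f : B × Fin 3 → M) :
    ∑ e with e.1 = b, f e = ∑ i, f (b, i) := by
  rw [sum_filter, Fintype.sum_prod_type, sum_comm]
  simp

omit [Fintype W] [Fintype V] [DecidableEq B] [DecidableEq V] in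
theorem sum_white {M : Type} [AddCommMonoid M] (w : W) (f : B × Fin 3 → M) :
    ∑ e with T.m e.2 e.1 = w, f e = ∑ i, f ((T.m i).symm w, i) := by
  classical
  rw [sum_filter, Fintype.sum_prod_type, sum_comm]
  refine sum_congr rfl fun i _ => ?_
  simp [← Equiv.eq_symm_apply]

/-- the Euler inequality for a subgraph -/
theorem euler_ineq (hc : T.Conn) (hi : T.Inv) (hs : T.Surj) (E0 : Finset (B × Fin 3))
    (X : Finset V) (SB : Finset B) (SW : Finset W)
    (hX : ∀ b i j, i ≠ j → T.p b j ∈ X → (b, i) ∈ E0) (hne : X ≠ univ)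
    (hS : ∀ (f : B → ℝ) (g : W → ℝ), (∀ b i, (b, i) ∈ E0 → f b = g (T.m i b)) →
      (∀ b ∈ SB, f b = 0) → (∀ w ∈ SW, g w = 0) → (∀ b, f b = 0) ∧ ∀ w, g w = 0) :
    X.card + 2 * Fintype.card B ≤ E0.card + SB.card + SW.card := by
  have := euler_le (K := ℝ) (P := B ⊕ W) (fun e : B × Fin 3 => Sum.inl e.1)
    (fun e => Sum.inr (T.m e.2 e.1)) (fun e => T.p e.1 (e.2 + 1)) (fun e => T.p e.1 (e.2 + 2))
    (by
      rintro F (b | w)
      · simp only [Sum.inl.injEq, reduceCtorEq, filter_false, sum_empty]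
        rw [sum_fst, Fin.sum_univ_three]
        show F (T.p b 1) - F (T.p b 2) + (F (T.p b 2) - F (T.p b 0)) +
          (F (T.p b 0) - F (T.p b 1)) = 0
        ring
      · simp only [Sum.inr.injEq, reduceCtorEq, filter_false, sum_empty]
        rw [sum_white, Fin.sum_univ_three]
        have e0 := hi 1 2 0 ((T.m 1).symm w) ((T.m 2).symm w) (by decide) (by decide) (by simp)
        have e1 := hi 0 2 1 ((T.m 0).symm w) ((T.m 2).symm w) (by decide) (by decide) (by simp)
        have e2 := hi 0 1 2 ((T.m 0).symm w) ((T.m 1).symm w) (by decide) (by decide) (by simp)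
        show 0 = F (T.p ((T.m 0).symm w) 1) - F (T.p ((T.m 0).symm w) 2) +
          (F (T.p ((T.m 1).symm w) 2) - F (T.p ((T.m 1).symm w) 0)) +
          (F (T.p ((T.m 2).symm w) 0) - F (T.p ((T.m 2).symm w) 1))
        rw [e0, e1, e2]
        ring)
    E0 X (SB.disjSum SW)
    (fun e he => ⟨fun h => he (hX e.1 e.2 _ (f3_ne1 _).symm h),
      fun h => he (hX e.1 e.2 _ (f3_ne2 _).symm h)⟩)
    (by
      intro F h1 h2 q
      obtain ⟨q0, hq0⟩ : ∃ q0, q0 ∉ X := by
        by_contra hcon
        push Not at hcon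
        exact hne (eq_univ_of_forall hcon)
      rw [hc.eqV hi hs F (fun b i => h2 (b, i)) q q0, h1 q0 hq0])
    (by
      intro f h1 h2
      obtain ⟨h3, h4⟩ := hS (fun b => f (.inl b)) (fun w => f (.inr w))
        (fun b i h => h1 (b, i) h) (fun b hb => h2 _ (inl_mem_disjSum.2 hb))
        (fun w hw => h2 _ (inr_mem_disjSum.2 hw))
      rintro (b | w)
      · exact h3 b
      · exact h4 w)
  rw [Fintype.card_sum, card_W T, card_disjSum] at this
  omega

theorem card_le (hc : T.Conn) (hi : T.Inv) (hs : T.Surj) :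
    Fintype.card V ≤ Fintype.card B + 2 := by
  rcases isEmpty_or_nonempty V with hV | ⟨⟨v⟩⟩
  · simp
  obtain ⟨b0, -, -⟩ := hs v
  have := euler_ineq hc hi hs univ ({v}ᶜ) {b0} ∅ (fun _ _ _ _ _ => mem_univ _)
    (fun h => by simpa using (eq_univ_iff_forall.1 h v))
    (by
      intro f g h1 h2 _
      have h3 : ∀ b, f b = 0 := fun b => by
        rw [hc.eq f g (fun b i => h1 b i (mem_univ _)) b b0, h2 b0 (mem_singleton_self _)]
      refine ⟨h3, fun w => ?_⟩
      have := h1 ((T.m 0).symm w) 0 (mem_univ _)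
      rw [h3] at this
      simpa using this.symm)
  rw [card_compl, card_univ, Fintype.card_prod, Fintype.card_fin] at this
  simp only [card_singleton, card_empty] at this
  omega

/-- the blacks around a face form one cycle -/
theorem Ok.face_conn (h : T.Ok) (g : W → Prop) (v : V) (j : Fin 3)
    (hg : ∀ b, T.p b j = v → (g (T.m (j + 1) b) ↔ g (T.m (j + 2) b))) (b b' : B)
    (hb : T.p b j = v) (hb' : T.p b' j = v) (i i' : Fin 3) (hi : i ≠ j) (hi' : i' ≠ j)
    (h1 : g (T.m i b)) : g (T.m i' b') := by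
  classical
  have key : ∀ x k, T.p x j = v → k ≠ j → (g (T.m k x) ↔ g (T.m (j + 1) x)) := by
    intro x k hx hk
    rcases f3_cases k j hk with rfl | rfl
    · rfl
    · exact (hg x hx).symm
  by_contra h2
  let T' : Tri B W (Option V) := ⟨T.m, fun x k =>
    if k = j ∧ T.p x j = v ∧ g (T.m (j + 1) x) then none else some (T.p x k)⟩
  have hinv : T'.Inv := by
    intro k k' l x x' hk hk' he
    have e1 := h.inv k k' l x x' hk hk' he
    have e2 : (l = j ∧ T.p x j = v ∧ g (T.m (j + 1) x)) ↔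
        (l = j ∧ T.p x' j = v ∧ g (T.m (j + 1) x')) := by
      refine and_congr_right fun hl => ?_
      subst hl
      rw [e1]
      refine and_congr_right fun hx => ?_
      have he' : T.m k x = T.m k' x' := he
      rw [← key x k (e1.trans hx) hk, ← key x' k' hx hk', he']
    simp only [T', e1, e2]
  have hsurj : T'.Surj := by
    rintro (_ | u)
    · exact ⟨b, j, if_pos ⟨rfl, hb, (key b i hb hi).1 h1⟩⟩
    · by_cases hu : u = v
      · refine ⟨b', j, ?_⟩
        have : ¬ (j = j ∧ T.p b' j = v ∧ g (T.m (j + 1) b')) :=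
          fun hh => h2 ((key b' i' hb' hi').2 hh.2.2)
        exact (if_neg this).trans (by rw [hb', hu])
      · obtain ⟨x, k, rfl⟩ := h.surj u
        refine ⟨x, k, if_neg ?_⟩
        rintro ⟨rfl, hh, -⟩
        exact hu hh
  have := card_le (T := T') h.conn hinv hsurj
  rw [Fintype.card_option, h.euler] at this
  omega

omit [Fintype W] [Fintype V] [DecidableEq B] [DecidableEq W] in
theorem sum_face (hi : T.Inv) (F : W → ℝ) (v : V) :
    ∑ c : B × Fin 3 with T.p c.1 c.2 = v, (F (T.m (c.2 + 1) c.1) - F (T.m (c.2 + 2) c.1)) = 0 := by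
  rw [sum_sub_distrib, sub_eq_zero]
  refine sum_equiv (Equiv.prodCongrLeft fun j => (T.m (j + 1)).trans (T.m (j + 2)).symm) ?_ ?_
  · rintro ⟨b, j⟩
    simp only [mem_filter, mem_univ, true_and, Equiv.prodCongrLeft_apply, Equiv.trans_apply]
    rw [hi (j + 1) (j + 2) j b ((T.m (j + 2)).symm (T.m (j + 1) b)) (f3_ne1 j)
      (f3_ne2 j) (by simp)]
  · rintro ⟨b, j⟩ _
    simp

omit [Fintype W] [Fintype V] [DecidableEq W] in
/-- a jump around a face is accompanied by a second one -/
theorem exists_second (hi : T.Inv) (hcol : ∀ b b' j j', T.p b j = T.p b' j' → j = j')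
    (g : W → Prop) (b : B) (j : Fin 3) (hb : ¬ (g (T.m (j + 1) b) ↔ g (T.m (j + 2) b))) :
    ∃ b', b' ≠ b ∧ T.p b' j = T.p b j ∧ ¬ (g (T.m (j + 1) b') ↔ g (T.m (j + 2) b')) := by
  classical
  by_contra hcon
  push Not at hcon
  have h1 := sum_face hi (fun w => if g w then 1 else 0) (T.p b j)
  rw [sum_eq_single (b, j)] at h1
  · by_cases h2 : g (T.m (j + 1) b) <;> by_cases h3 : g (T.m (j + 2) b) <;> simp_all
  · rintro ⟨x, k⟩ hx hne
    have h2 : T.p x k = T.p b j := (mem_filter.1 hx).2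
    obtain rfl := hcol _ _ _ _ h2
    have h3 := hcon x (fun e => hne (by rw [e])) h2
    simp only [h3, sub_self]
  · intro h2
    exact absurd (by simp) h2

/-- closed corner chains are boundaries of white chains -/
theorem Ok.exact (h : T.Ok) (w0 : W) (z : B × Fin 3 → ℝ) (h1 : ∀ b, ∑ j, z (b, j) = 0)
    (h2 : ∀ v, ∑ c with T.p c.1 c.2 = v, z c = 0) :
    ∃ H : W → ℝ, H w0 = 0 ∧ ∀ b j, z (b, j) = H (T.m (j + 1) b) - H (T.m (j + 2) b) := by
  obtain ⟨H, e1, e2⟩ := exact_of_euler (K := ℝ) (P := B ⊕ V) (fun c : B × Fin 3 => Sum.inl c.1)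
    (fun c => Sum.inr (T.p c.1 c.2)) (fun c => T.m (c.2 + 1) c.1) (fun c => T.m (c.2 + 2) c.1)
    (by
      rintro F (b | v)
      · simp only [Sum.inl.injEq, reduceCtorEq, filter_false, sum_empty]
        rw [sum_fst, Fin.sum_univ_three]
        show F (T.m 1 b) - F (T.m 2 b) + (F (T.m 2 b) - F (T.m 0 b)) +
          (F (T.m 0 b) - F (T.m 1 b)) = 0
        ring
      · simp only [Sum.inr.injEq, reduceCtorEq, filter_false, sum_empty]
        exact (sum_face h.inv F v).symm)
    (.inl ((T.m 0).symm w0)) w0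
    (by
      intro f hf
      have e1 : ∀ v v', f (.inr v) = f (.inr v') :=
        h.conn.eqV h.inv h.surj (fun v => f (.inr v))
          (fun b i => (hf (b, i + 1)).symm.trans (hf (b, i + 2)))
      rintro (b | v)
      · exact (hf (b, 0)).trans ((e1 _ _).trans (hf (_, 0)).symm)
      · exact (e1 _ _).trans (hf (_, 0)).symm)
    (fun F hF q => h.conn.eqW F (fun b j => hF (b, j)) q w0)
    (by
      rw [Fintype.card_prod, Fintype.card_fin, Fintype.card_sum, h.euler, card_W T]
      ring)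
    z
    (by
      rintro (b | v)
      · simp only [Sum.inl.injEq, reduceCtorEq, filter_false, sum_empty]
        rw [sum_fst, h1]
      · simp only [Sum.inr.injEq, reduceCtorEq, filter_false, sum_empty]
        rw [h2])
  exact ⟨H, e1, fun b j => e2 (b, j)⟩

theorem TM.surj (h : T.Ok) {b0 : B} {c0 : Fin 3} {α : B → Fin 3} (hα : T.TM b0 c0 α) (v : V)
    (hv : ∀ j, j ≠ c0 → v ≠ T.p b0 j) : ∃ b, T.p b (α b) = v := by
  have hne : T.p b0 (c0 + 1) ≠ T.p b0 (c0 + 2) := fun e => f3_ne12 c0 (h.col _ _ _ _ e)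
  have h1 : univ.image (fun b => T.p b (α b)) = ({T.p b0 (c0 + 1), T.p b0 (c0 + 2)}ᶜ) := by
    refine eq_of_subset_of_card_le ?_ ?_
    · intro u hu
      obtain ⟨b, -, rfl⟩ := mem_image.1 hu
      simp only [mem_compl, mem_insert, mem_singleton, not_or]
      exact ⟨hα.ne b _ (f3_ne1 c0), hα.ne b _ (f3_ne2 c0)⟩
    · rw [card_image_of_injective _ hα.inj, card_compl, card_pair hne, h.euler, card_univ]
      omega
  have h2 : v ∈ univ.image (fun b => T.p b (α b)) := by
    rw [h1]
    simp only [mem_compl, mem_insert, mem_singleton, not_or]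
    exact ⟨hv _ (f3_ne1 c0), hv _ (f3_ne2 c0)⟩
  obtain ⟨b, -, hb⟩ := mem_image.1 h2
  exact ⟨b, hb⟩

end Fin

end Tri

end Crest.Agent.R39
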