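import Crest.Agent.R39.Sum

/-! Reduction along nontrivial 3-edge-cuts. -/

set_option autoImplicit false
set_option linter.unusedSectionVars false

namespace Crest.Agent.R39

open Finset

theorem f3_other : ∀ k i i' l : Fin 3, i ≠ k → i' ≠ k → i ≠ i' → l ≠ k → l ≠ i → l = i' := by
  decide

namespace Tri

variable {B W V : Type} {T : Tri B W V}
variable [Fintype B] [Fintype W] [Fintype V] [DecidableEq B] [DecidableEq W] [DecidableEq V]

theorem conn_of_cut (h : ∀ (SB : Finset B) (SW : Finset W), (SB.Nonempty ∨ SW.Nonempty) →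
    (SB ≠ univ ∨ SW ≠ univ) → 3 ≤ (T.cutSet SB SW).card) : T.Conn := by
  classical
  intro f g hfg b b' hb
  by_contra hb'
  have := h (univ.filter f) (univ.filter g) (Or.inl ⟨b, by simpa using hb⟩)
    (Or.inl fun e => hb' (by simpa using (eq_univ_iff_forall.1 e b')))
  have h0 : T.cutSet (univ.filter f) (univ.filter g) = ∅ := by
    ext e
    simp [cutSet, hfg e.1 e.2]
  rw [h0] at this
  simp at this

theorem parity (c : B → Fin 3) (hc : Function.Bijective (fun b => T.m (c b) b))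
    (F : Finset B) (G : Finset W) (b1 : B) (i1 : Fin 3) (h1 : b1 ∈ F) (h2 : i1 ≠ c b1)
    (h3 : T.m i1 b1 ∉ G)
    (h4 : ∀ b i, i ≠ c b → (b, i) ≠ (b1, i1) → (b ∈ F ↔ T.m i b ∈ G)) : False := by
  have a1 := card_pairs_ne F c
  have a2 := card_white_edges T G
  have a3 : (univ.filter (fun e : B × Fin 3 => T.m e.2 e.1 ∈ G ∧ e.2 = c e.1)).card = G.card := by
    refine card_bij (fun e _ => T.m e.2 e.1) (fun e he => (mem_filter.1 he).2.1) ?_ ?_
    · rintro ⟨b, i⟩ he ⟨b', i'⟩ he' e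
      obtain rfl : i = c b := (mem_filter.1 he).2.2
      obtain rfl : i' = c b' := (mem_filter.1 he').2.2
      obtain rfl : b = b' := hc.1 e
      rfl
    · intro w hw
      obtain ⟨b, rfl⟩ := hc.2 w
      exact ⟨(b, c b), mem_filter.2 ⟨mem_univ _, hw, rfl⟩, rfl⟩
  have a4 := card_filter_add_card_filter_not
    (s := univ.filter (fun e : B × Fin 3 => T.m e.2 e.1 ∈ G)) (fun e => e.2 = c e.1)
  rw [filter_filter, filter_filter, a2, a3] at a4
  have a5 : univ.filter (fun e : B × Fin 3 => e.1 ∈ F ∧ e.2 ≠ c e.1) =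
      insert (b1, i1) (univ.filter (fun e : B × Fin 3 => T.m e.2 e.1 ∈ G ∧ ¬ e.2 = c e.1)) := by
    ext ⟨b, i⟩
    simp only [mem_filter, mem_univ, true_and, mem_insert]
    by_cases e : (b, i) = (b1, i1)
    · obtain ⟨rfl, rfl⟩ := Prod.mk.inj e
      simp [h1, h2]
    · have := fun hi => h4 b i hi e
      tauto
  rw [a5, card_insert_of_notMem (by simp [h3])] at a1
  omega

/-- a 3-edge-cut with black ends `bb i` on the side `SB ∪ SW` -/
structure Cut3 (T : Tri B W V) (SB : Finset B) (SW : Finset W) (bb : Fin 3 → B) : Prop where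
  cl : ∀ b i, T.m i b ∈ SW → b ∈ SB
  mem : ∀ i, bb i ∈ SB
  out : ∀ i, T.m i (bb i) ∉ SW
  uniq : ∀ b i, b ∈ SB → T.m i b ∉ SW → b = bb i

theorem exists_cut3 (h : T.Ok) {b0 : B} (hb : ¬ T.NoBad b0) :
    ∃ SB SW bb, T.Cut3 SB SW bb ∧ b0 ∉ SB ∧ SW.Nonempty ∧ SB.card = SW.card + 1 := by
  unfold NoBad at hb
  push Not at hb
  obtain ⟨SB, SW, h1, h2, h3, h4⟩ := hb
  have hsub : ∀ i, SW.map (T.m i).symm.toEmbedding ⊆ SB := fun i b hb =>
    h3 b i (by simpa using hb)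
  have h5 : SB.card = SW.card + 1 := by
    by_contra hcon
    have h6 := h.cut SB SW (Or.inr h1) (Or.inl fun e => h2 (eq_univ_iff_forall.1 e b0))
    have h7 : T.cutSet SB SW = ∅ := by
      ext ⟨b, i⟩
      have := eq_of_subset_of_card_le (hsub i) (by rw [card_map]; omega)
      simp [cutSet, ← this]
    rw [h7] at h6
    simp at h6
  have h6 : ∀ i, ∃ b, SB \ SW.map (T.m i).symm.toEmbedding = {b} := fun i =>
    card_eq_one.1 (by rw [card_sdiff_of_subset (hsub i), card_map]; omega)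
  choose bb hbb using h6
  have h7 : ∀ i b, (b ∈ SB ∧ T.m i b ∉ SW) ↔ b = bb i := fun i b => by
    rw [← mem_singleton, ← hbb]
    simp
  exact ⟨SB, SW, bb, ⟨h3, fun i => ((h7 i _).2 rfl).1, fun i => ((h7 i _).2 rfl).2,
    fun b i e e' => (h7 i b).1 ⟨e, e'⟩⟩, h2, h1, h5⟩

variable {SB : Finset B} {SW : Finset W} {bb : Fin 3 → B}

theorem Cut3.face (h : T.Ok) (hC : T.Cut3 SB SW bb) (i i' j : Fin 3) (hi : i ≠ j) (hi' : i' ≠ j) :
    T.p (bb i) j = T.p (bb i') j := by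
  have key : T.p (bb (j + 1)) j = T.p (bb (j + 2)) j := by
    by_cases e : bb (j + 1) = bb (j + 2)
    · rw [e]
    obtain ⟨b, h1, h2, h3⟩ := exists_second h.inv h.col (fun w => w ∈ SW) (bb (j + 1)) j
      (fun e' => e (hC.uniq _ _ (hC.mem _) fun e2 => hC.out _ (e'.2 e2)))
    by_cases a1 : T.m (j + 1) b ∈ SW
    · rw [← h2, hC.uniq b (j + 2) (hC.cl _ _ a1) fun a2 => h3 (iff_of_true a1 a2)]
    · have a2 : T.m (j + 2) b ∈ SW := by
        by_contra a2
        exact h3 (iff_of_false a1 a2)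
      exact absurd (hC.uniq b (j + 1) (hC.cl _ _ a2) a1) h1
  rcases f3_cases _ _ hi with rfl | rfl <;> rcases f3_cases _ _ hi' with rfl | rfl
  · rfl
  · exact key
  · exact key.symm
  · rfl

/-- the black end of the edge of type `i` -/
def up (SB : Finset B) (bb : Fin 3 → B) (i : Fin 3) (x : Option {b // b ∉ SB}) : B :=
  x.elim (bb i) Subtype.val

/-- contraction of blacks -/
def down (SB : Finset B) (b : B) : Option {b // b ∉ SB} :=
  if h : b ∈ SB then none else some ⟨b, h⟩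

/-- contraction of whites -/
def downW (SW : Finset W) (w : W) : Option {w // w ∈ SW} :=
  if h : w ∈ SW then some ⟨w, h⟩ else none

theorem Cut3.down_up (hC : T.Cut3 SB SW bb) (i : Fin 3) (x : Option {b // b ∉ SB}) :
    down SB (up SB bb i x) = x := by
  rcases x with _ | ⟨b, hb⟩
  · exact dif_pos (hC.mem i)
  · exact dif_neg hb

theorem Cut3.up_down (hC : T.Cut3 SB SW bb) (i : Fin 3) (b : B) (hb : T.m i b ∉ SW) :
    up SB bb i (down SB b) = b := by
  unfold down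
  split_ifs with h
  · exact (hC.uniq b i h hb).symm
  · rfl

theorem Cut3.up_out (hC : T.Cut3 SB SW bb) (i : Fin 3) (x : Option {b // b ∉ SB}) :
    T.m i (up SB bb i x) ∉ SW := by
  rcases x with _ | ⟨b, hb⟩
  · exact hC.out i
  · exact fun e => hb (hC.cl _ _ e)

theorem downW_eq {w w' : W} (h : downW SW w = downW SW w') : w = w' ∨ (w ∉ SW ∧ w' ∉ SW) := by
  unfold downW at h
  split_ifs at h with h1 h2 h2
  · exact Or.inl (by simpa using h)
  · exact Or.inr ⟨h1, h2⟩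

/-- contract the side `SB ∪ SW` -/
noncomputable def Cut3.left (hC : T.Cut3 SB SW bb) :
    Tri (Option {b // b ∉ SB}) {w // w ∉ SW} {v // ∃ x j, T.p (up SB bb (j + 1) x) j = v} where
  m i := Equiv.ofBijective (fun x => ⟨T.m i (up SB bb i x), hC.up_out i x⟩) ⟨fun x y e => by
      have h1 : up SB bb i x = up SB bb i y := (T.m i).injective (congrArg Subtype.val e)
      rw [← hC.down_up i x, h1, hC.down_up],
    fun w => ⟨down SB ((T.m i).symm w), Subtype.ext (by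
      show T.m i (up SB bb i (down SB ((T.m i).symm w))) = w
      rw [hC.up_down i _ (by simpa using w.2)]
      simp)⟩⟩
  p x j := ⟨T.p (up SB bb (j + 1) x) j, x, j, rfl⟩

/-- contract the other side -/
noncomputable def Cut3.right (hC : T.Cut3 SB SW bb) :
    Tri {b // b ∈ SB} (Option {w // w ∈ SW}) {v // ∃ (b : {b // b ∈ SB}) (j : Fin 3), T.p b j = v}
    where
  m i := Equiv.ofBijective (fun b => downW SW (T.m i b)) ⟨fun x y e => Subtype.ext (by
      rcases downW_eq e with e | ⟨e1, e2⟩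
      · exact (T.m i).injective e
      · rw [hC.uniq _ i x.2 e1, hC.uniq _ i y.2 e2]), by
    rintro (_ | ⟨w, hw⟩)
    · exact ⟨⟨bb i, hC.mem i⟩, dif_neg (hC.out i)⟩
    · exact ⟨⟨(T.m i).symm w, hC.cl _ i (by simpa using hw)⟩, by simp [downW, hw]⟩⟩
  p b j := ⟨T.p b j, b, j, rfl⟩

theorem Cut3.left_m (hC : T.Cut3 SB SW bb) (i : Fin 3) (x : Option {b // b ∉ SB}) :
    (hC.left.m i x).1 = T.m i (up SB bb i x) := rfl

theorem Cut3.right_m (hC : T.Cut3 SB SW bb) (i : Fin 3) (x : {b // b ∈ SB}) :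
    hC.right.m i x = downW SW (T.m i x) := rfl

theorem Cut3.left_inv (h : T.Ok) (hC : T.Cut3 SB SW bb) : hC.left.Inv := by
  have key : ∀ i j x, i ≠ j → T.p (up SB bb (j + 1) x) j = T.p (up SB bb i x) j := by
    rintro i j (_ | x) hi
    · exact hC.face h _ _ _ (f3_ne1 j) hi
    · rfl
  intro i i' j x x' hi hi' e
  refine Subtype.ext ?_
  show T.p (up SB bb (j + 1) x) j = T.p (up SB bb (j + 1) x') j
  rw [key i j x hi, key i' j x' hi']
  exact h.inv i i' j _ _ hi hi' (congrArg Subtype.val e)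

theorem Cut3.right_inv (h : T.Ok) (hC : T.Cut3 SB SW bb) : hC.right.Inv := by
  intro i i' j x x' hi hi' e
  refine Subtype.ext ?_
  show T.p x j = T.p x' j
  rcases downW_eq e with e | ⟨e1, e2⟩
  · exact h.inv i i' j _ _ hi hi' e
  · rw [hC.uniq _ i x.2 e1, hC.uniq _ i' x'.2 e2]
    exact hC.face h _ _ _ hi hi'

theorem Cut3.left_cut (h : T.Ok) (hC : T.Cut3 SB SW bb) (A : Finset (Option {b // b ∉ SB}))
    (C : Finset {w // w ∉ SW}) (h1 : A.Nonempty ∨ C.Nonempty) (h2 : A ≠ univ ∨ C ≠ univ) :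
    3 ≤ (hC.left.cutSet A C).card := by
  let A' : Finset B := univ.filter (fun b => down SB b ∈ A)
  let C' : Finset W := univ.filter (fun w => if h : w ∈ SW then none ∈ A else ⟨w, h⟩ ∈ C)
  have a1 : ∀ i x, up SB bb i x ∈ A' ↔ x ∈ A := fun i x => by simp [A', hC.down_up]
  have a2 : ∀ w : {w // w ∉ SW}, w.1 ∈ C' ↔ w ∈ C := fun w => by simp [C', w.2]
  refine (h.cut A' C' ?_ ?_).trans ?_
  · exact h1.imp (fun ⟨x, hx⟩ => ⟨_, (a1 0 x).2 hx⟩) (fun ⟨w, hw⟩ => ⟨_, (a2 w).2 hw⟩)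
  · exact h2.imp (fun e e' => e (eq_univ_of_forall fun x => (a1 0 x).1 (e' ▸ mem_univ _)))
      (fun e e' => e (eq_univ_of_forall fun w => (a2 w).1 (e' ▸ mem_univ _)))
  · refine (card_le_card ?_).trans (card_image_le (f := fun e => (up SB bb e.2 e.1, e.2)))
    rintro ⟨b, i⟩ he
    have h3 : ¬ (b ∈ A' ↔ T.m i b ∈ C') := (mem_filter.1 he).2
    have h4 : T.m i b ∉ SW := fun e => h3 (by simp [A', C', e, down, hC.cl b i e])
    refine mem_image.2 ⟨(down SB b, i), mem_filter.2 ⟨mem_univ _, ?_⟩, by simp [hC.up_down i b h4]⟩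
    show ¬ (down SB b ∈ A ↔ hC.left.m i (down SB b) ∈ C)
    rwa [← a1 i, ← a2, hC.left_m, hC.up_down i b h4]

theorem Cut3.right_cut (h : T.Ok) (hC : T.Cut3 SB SW bb) (A : Finset {b // b ∈ SB})
    (C : Finset (Option {w // w ∈ SW})) (h1 : A.Nonempty ∨ C.Nonempty) (h2 : A ≠ univ ∨ C ≠ univ) :
    3 ≤ (hC.right.cutSet A C).card := by
  let A' : Finset B := univ.filter (fun b => if h : b ∈ SB then ⟨b, h⟩ ∈ A else none ∈ C)
  let C' : Finset W := univ.filter (fun w => downW SW w ∈ C)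
  have a1 : ∀ b : {b // b ∈ SB}, b.1 ∈ A' ↔ b ∈ A := fun b => by simp [A', b.2]
  have a2 : ∀ i b, T.m i b.1 ∈ C' ↔ hC.right.m i b ∈ C := fun i b => by simp [C', hC.right_m]
  have a3 : ∀ x, T.m 0 ((hC.right.m 0).symm x).1 ∈ C' ↔ x ∈ C := fun x => by
    rw [a2, Equiv.apply_symm_apply]
  refine (h.cut A' C' ?_ ?_).trans ?_
  · exact h1.imp (fun ⟨x, hx⟩ => ⟨_, (a1 x).2 hx⟩) (fun ⟨w, hw⟩ => ⟨_, (a3 w).2 hw⟩)
  · exact h2.imp (fun e e' => e (eq_univ_of_forall fun x => (a1 x).1 (e' ▸ mem_univ _)))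
      (fun e e' => e (eq_univ_of_forall fun w => (a3 w).1 (e' ▸ mem_univ _)))
  · refine (card_le_card ?_).trans (card_image_le (f := fun e => (e.1.1, e.2)))
    rintro ⟨b, i⟩ he
    have h3 : ¬ (b ∈ A' ↔ T.m i b ∈ C') := (mem_filter.1 he).2
    have h4 : b ∈ SB := by
      by_contra e
      have e' : T.m i b ∉ SW := fun e' => e (hC.cl b i e')
      exact h3 (by simp [A', C', e, downW, e'])
    refine mem_image.2 ⟨(⟨b, h4⟩, i), mem_filter.2 ⟨mem_univ _, ?_⟩, rfl⟩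
    show ¬ (⟨b, h4⟩ ∈ A ↔ hC.right.m i ⟨b, h4⟩ ∈ C)
    rwa [← a1, ← a2]

theorem Cut3.card_left (SB : Finset B) :
    Fintype.card (Option {b // b ∉ SB}) + SB.card = Fintype.card B + 1 := by
  have := card_le_univ SB
  rw [Fintype.card_option, Fintype.card_subtype_compl, Fintype.card_coe]
  omega

theorem Cut3.ok (h : T.Ok) (hC : T.Cut3 SB SW bb) : hC.left.Ok ∧ hC.right.Ok := by
  have s1 : hC.left.Surj := fun ⟨v, x, j, e⟩ => ⟨x, j, Subtype.ext e⟩
  have s2 : hC.right.Surj := fun ⟨v, x, j, e⟩ => ⟨x, j, Subtype.ext e⟩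
  have e1 := card_le (conn_of_cut (hC.left_cut h)) (hC.left_inv h) s1
  have e2 := card_le (conn_of_cut (hC.right_cut h)) (hC.right_inv h) s2
  have e3 := Cut3.card_left SB
  have e4 : Fintype.card {b // b ∈ SB} = SB.card := Fintype.card_coe SB
  have e5 : Fintype.card V + 3 ≤ Fintype.card {v // ∃ x j, T.p (up SB bb (j + 1) x) j = v} +
      Fintype.card {v // ∃ (b : {b // b ∈ SB}) (j : Fin 3), T.p b j = v} := by
    rw [Fintype.card_subtype, Fintype.card_subtype, ← card_union_add_card_inter]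
    refine add_le_add (card_le_card fun v _ => ?_) ?_
    · obtain ⟨b, j, rfl⟩ := h.surj v
      by_cases hb : b ∈ SB
      · exact mem_union_right _ (mem_filter.2 ⟨mem_univ _, ⟨b, hb⟩, j, rfl⟩)
      · exact mem_union_left _ (mem_filter.2 ⟨mem_univ _, some ⟨b, hb⟩, j, rfl⟩)
    · have : (univ.image (fun j => T.p (bb (j + 1)) j)).card = 3 := by
        rw [card_image_of_injective _ (fun j k e => h.col _ _ _ _ e)]; simp
      refine this.symm.le.trans (card_le_card fun v hv => ?_)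
      obtain ⟨j, -, rfl⟩ := mem_image.1 hv
      exact mem_inter.2 ⟨mem_filter.2 ⟨mem_univ _, none, j, rfl⟩,
        mem_filter.2 ⟨mem_univ _, ⟨_, hC.mem _⟩, j, rfl⟩⟩
  have e6 := h.euler
  exact ⟨⟨hC.left_inv h, fun _ _ _ _ e => h.col _ _ _ _ (congrArg Subtype.val e), s1, by omega,
    hC.left_cut h⟩, ⟨hC.right_inv h, fun _ _ _ _ e => h.col _ _ _ _ (congrArg Subtype.val e), s2,
    by omega, hC.right_cut h⟩⟩

theorem Cut3.glue (hC : T.Cut3 SB SW bb) {c1 : Option {b // b ∉ SB} → Fin 3}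
    {c2 : {b // b ∈ SB} → Fin 3} (h1 : hC.left.Ham c1) (h2 : hC.right.Ham c2)
    (hk : c2 ⟨bb (c1 none), hC.mem _⟩ = c1 none) :
    T.Ham (fun b => if h : b ∈ SB then c2 ⟨b, h⟩ else c1 (some ⟨b, h⟩)) := by
  classical
  set c : B → Fin 3 := fun b => if h : b ∈ SB then c2 ⟨b, h⟩ else c1 (some ⟨b, h⟩) with hc
  have d1 : ∀ b (h : b ∈ SB), c b = c2 ⟨b, h⟩ := fun b h => dif_pos h
  have d2 : ∀ b (h : b ∉ SB), c b = c1 (some ⟨b, h⟩) := fun b h => dif_neg h
  have d3 : c (bb (c1 none)) = c1 none := (d1 _ (hC.mem _)).trans hk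
  have ha : ∀ b, b ∈ SB → T.m (c b) b ∉ SW → b = bb (c1 none) := by
    intro b hb e
    refine congrArg Subtype.val (h2.1.1 (a₁ := ⟨b, hb⟩) (a₂ := ⟨bb (c1 none), hC.mem _⟩) ?_)
    show downW SW (T.m (c2 ⟨b, hb⟩) b) = downW SW (T.m (c2 ⟨_, _⟩) (bb (c1 none)))
    rw [hk, ← d1 b hb]
    simp only [downW, dif_neg e, dif_neg (hC.out _)]
  have hmix : ∀ b b', b ∈ SB → b' ∉ SB → T.m (c b) b ≠ T.m (c b') b' := by
    intro b b' hb hb' e
    obtain rfl := ha b hb (fun e' => hb' (hC.cl _ _ (e ▸ e')))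
    rw [d3, d2 b' hb'] at e
    exact absurd (h1.1.1 (a₁ := none) (a₂ := some ⟨b', hb'⟩) (Subtype.ext e)) (by simp)
  have hbij : Function.Bijective (fun b => T.m (c b) b) := by
    refine (Fintype.bijective_iff_injective_and_card _).2 ⟨fun b b' e => ?_, (card_W T).symm⟩
    have e : T.m (c b) b = T.m (c b') b' := e
    by_cases hb : b ∈ SB <;> by_cases hb' : b' ∈ SB
    · rw [d1 b hb, d1 b' hb'] at e
      exact congrArg Subtype.val (h2.1.1 (a₁ := ⟨b, hb⟩) (a₂ := ⟨b', hb'⟩)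
        (congrArg (downW SW) e))
    · exact absurd e (hmix b b' hb hb')
    · exact absurd e.symm (hmix b' b hb' hb)
    · rw [d2 b hb, d2 b' hb'] at e
      simpa using h1.1.1 (a₁ := some ⟨b, hb⟩) (a₂ := some ⟨b', hb'⟩) (Subtype.ext e)
  refine ⟨hbij, fun f g hfg => ?_⟩
  have hne : ∀ i, i ≠ c1 none → i ≠ c (bb i) := by
    intro i hi e
    have := ha (bb i) (hC.mem i) (e ▸ hC.out i)
    rw [this, d3] at e
    exact hi e
  have hne' : ∀ i, i ≠ c (bb i) → i ≠ c1 none := fun i hi e => hi (by rw [e, d3])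
  have hpar : ∀ i i', i ≠ c1 none → i' ≠ c1 none → f (bb i) → f (bb i') := by
    intro i i' hi hi' hf
    by_contra hf'
    refine parity c hbij (SB.filter f) (SW.filter g) (bb i) i (mem_filter.2 ⟨hC.mem i, hf⟩)
      (hne i hi) (fun e => hC.out i (mem_filter.1 e).1) fun b l hl e => ?_
    rw [mem_filter, mem_filter, hfg b l hl]
    refine and_congr_left fun hg => ⟨fun hb => ?_, hC.cl b l⟩
    by_contra e'
    obtain rfl := hC.uniq b l hb e'
    obtain rfl : l = i' := f3_other _ i i' l hi hi' (fun e2 => hf' (e2 ▸ hf)) (hne' l hl)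
      (fun e2 => e (by rw [e2]))
    exact hf' ((hfg _ _ hl).2 hg)
  have hpar' : ∀ i, i ≠ c1 none → (f (bb i) ↔ f (bb (c1 none + 1))) := fun i hi =>
    ⟨hpar _ _ hi (f3_ne1 _), hpar _ _ (f3_ne1 _) hi⟩
  have s2 := h2.2 (fun b => f b) (fun x => x.elim (f (bb (c1 none + 1))) (fun w => g w)) (by
    rintro ⟨b, hb⟩ i hi
    rw [← d1 b hb] at hi
    rw [hC.right_m]
    by_cases e : T.m i b ∈ SW
    · simp only [downW, dif_pos e]
      exact hfg b i hi
    · simp only [downW, dif_neg e]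
      obtain rfl := hC.uniq b i hb e
      exact hpar' i (hne' i hi))
  have s1 := h1.2 (fun x => f (up SB bb (c1 none + 1) x)) (fun w => g w) (by
    rintro (_ | ⟨b, hb⟩) i hi
    · exact (hpar' i hi).symm.trans (hfg _ i (hne i hi))
    · exact hfg b i (by rwa [d2 b hb]))
  have s3 : ∀ b, f b ↔ f (up SB bb (c1 none + 1) (down SB b)) := by
    intro b
    unfold down
    split_ifs with hb
    · exact ⟨s2 ⟨b, hb⟩ ⟨_, hC.mem _⟩, s2 ⟨_, hC.mem _⟩ ⟨b, hb⟩⟩
    · rfl
  intro b b' hb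
  exact (s3 b').2 (s1 _ _ ((s3 b).1 hb))

end Tri

theorem main_aux (n : ℕ) : ∀ (B W V : Type) [Fintype B] [Fintype W] [Fintype V] [DecidableEq B]
    [DecidableEq W] [DecidableEq V] (T : Tri B W V), Fintype.card B = n → T.Ok →
    ∀ b0 i0, ∃ c, c b0 = i0 ∧ T.Ham c := by
  induction n using Nat.strong_induction_on with
  | _ n ih =>
    intro B W V _ _ _ _ _ _ T hn h b0 i0
    by_cases hb : T.NoBad b0
    · exact Tri.ham_of_noBad h hb i0
    obtain ⟨SB, SW, bb, hC, h1, h2, h3⟩ := Tri.exists_cut3 h hb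
    obtain ⟨o1, o2⟩ := hC.ok h
    have e1 := Tri.Cut3.card_left SB
    have e2 := h2.card_pos
    obtain ⟨c1, a1, a2⟩ := ih _ (by omega) _ _ _ hC.left rfl o1 (some ⟨b0, h1⟩) i0
    obtain ⟨c2, a3, a4⟩ := ih _ (by
      rw [Fintype.card_coe, ← hn]
      exact card_lt_card (ssubset_univ_iff.2 fun e => h1 (e ▸ mem_univ _))) _ _ _ hC.right rfl o2
      ⟨bb (c1 none), hC.mem _⟩ (c1 none)
    exact ⟨_, (dif_neg h1).trans a1, hC.glue a2 a4 a3⟩

end Crest.Agent.R39
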