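import Crest.Agent.R39.Basic

/-! From a two-colouring of the faces compatible with a Tutte matching to a Hamiltonian cycle. -/

set_option autoImplicit false
set_option linter.unusedSectionVars false

namespace Crest.Agent.R39

open Finset

namespace Tri

variable {B W V : Type} {T : Tri B W V}
variable [Fintype B] [Fintype W] [Fintype V] [DecidableEq B] [DecidableEq W] [DecidableEq V]

omit [Fintype W] [Fintype V] [DecidableEq W] [DecidableEq V] in
theorem card_pairs_ne (D : Finset B) (c : B → Fin 3) :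
    (univ.filter (fun e : B × Fin 3 => e.1 ∈ D ∧ e.2 ≠ c e.1)).card = 2 * D.card := by
  rw [card_eq_sum_card_fiberwise (f := Prod.fst) (t := D) (fun e he => (mem_filter.1 he).2.1),
    mul_comm, ← smul_eq_mul, ← sum_const]
  refine sum_congr rfl fun b hb => ?_
  have : ((univ.filter (fun e : B × Fin 3 => e.1 ∈ D ∧ e.2 ≠ c e.1)).filter (fun e => e.1 = b)) =
      (univ.erase (c b)).image (fun i => (b, i)) := by
    ext ⟨x, i⟩
    simp only [mem_filter, mem_univ, true_and, mem_image, mem_erase, and_true, Prod.mk.injEq]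
    constructor
    · rintro ⟨⟨-, h2⟩, rfl⟩
      exact ⟨i, h2, rfl, rfl⟩
    · rintro ⟨k, h1, rfl, rfl⟩
      exact ⟨⟨hb, h1⟩, rfl⟩
  rw [this, card_image_of_injective _ (fun i k h => (Prod.mk.inj h).2),
    card_erase_of_mem (mem_univ _)]
  simp

theorem conn_of_matching (h : T.Ok) {b0 : B} {c0 : Fin 3} {α : B → Fin 3} (hα : T.TM b0 c0 α)
    (c : B → Fin 3) (hc : Function.Bijective (fun b => T.m (c b) b)) (hne : ∀ b, α b ≠ c b) :
    T.Ham c := by
  classical
  refine ⟨hc, ?_⟩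
  let Iv : (B → Prop) → (W → Prop) → Prop := fun f g => ∀ b i, i ≠ c b → (f b ↔ g (T.m i b))
  obtain ⟨UB, hUB⟩ : ∃ UB : Finset B, ∀ b, b ∈ UB ↔ ∀ f g, Iv f g → f b0 → f b :=
    exists_finset _
  obtain ⟨UW, hUW⟩ : ∃ UW : Finset W, ∀ w, w ∈ UW ↔ ∀ f g, Iv f g → f b0 → g w :=
    exists_finset _
  have hU : ∀ b i, i ≠ c b → (b ∈ UB ↔ T.m i b ∈ UW) := by
    intro b i hi
    rw [hUB, hUW]
    exact forall_congr' fun f => forall_congr' fun g => forall_congr' fun hfg =>
      forall_congr' fun _ => hfg b i hi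
  have hb0 : b0 ∈ UB := (hUB b0).2 fun _ _ _ h => h
  suffices hall : ∀ b, b ∈ UB by
    intro f g hfg b b' hb
    by_cases h0 : f b0
    · exact (hUB b').1 (hall b') f g hfg h0
    · exact absurd hb ((hUB b).1 (hall b) (fun x => ¬ f x) (fun w => ¬ g w)
        (fun x i hi => not_congr (hfg x i hi)) h0)
  by_contra hcon
  push Not at hcon
  obtain ⟨b2, hb2⟩ := hcon
  -- the cut edges
  let D : Finset B := univ.filter (fun b => ¬ (b ∈ UB ↔ T.m (c b) b ∈ UW))
  let P : Finset (B × Fin 3) := univ.filter (fun e => e.1 ∈ D ∧ e.2 ≠ c e.1)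
  let VZ : Finset V := P.image (fun e => T.p e.1 e.2)
  have hjump : ∀ b j, ¬ (T.m (j + 1) b ∈ UW ↔ T.m (j + 2) b ∈ UW) ↔ (b ∈ D ∧ j ≠ c b) := by
    intro b j
    simp only [D, mem_filter, mem_univ, true_and]
    by_cases hj : j = c b
    · subst hj
      rw [← hU b _ (f3_ne1 _), ← hU b _ (f3_ne2 _)]
      simp
    · rcases f3_cases _ _ (Ne.symm hj) with e | e
      · rw [← hU b (j + 2) (by rw [e]; exact (f3_ne12 j).symm), ← e]
        tauto
      · rw [← hU b (j + 1) (by rw [e]; exact f3_ne12 j), ← e]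
        tauto
  have hVZ : 2 * VZ.card ≤ P.card := by
    refine mul_card_image_le_card P 2 fun v hv => ?_
    obtain ⟨⟨b, j⟩, he, rfl⟩ := mem_image.1 hv
    have h1 : b ∈ D ∧ j ≠ c b := (mem_filter.1 he).2
    obtain ⟨b', h2, h3, h4⟩ := exists_second h.inv h.col (· ∈ UW) b j ((hjump b j).2 h1)
    have h5 := (hjump b' j).1 h4
    refine le_trans (card_pair (a := (b, j)) (b := (b', j))
      (fun e => h2 (Prod.mk.inj e).1.symm)).ge (card_le_card ?_)
    intro e he'
    rcases mem_insert.1 he' with rfl | he'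
    · exact mem_filter.2 ⟨he, rfl⟩
    · rw [mem_singleton.1 he']
      exact mem_filter.2 ⟨mem_filter.2 ⟨mem_univ _, h5⟩, h3⟩
  have hP : P.card = 2 * D.card := card_pairs_ne D c
  have hVD : D.image (fun b => T.p b (α b)) = VZ := by
    refine eq_of_subset_of_card_le ?_ ?_
    · intro v hv
      obtain ⟨b, hb, rfl⟩ := mem_image.1 hv
      exact mem_image.2 ⟨(b, α b), mem_filter.2 ⟨mem_univ _, hb, hne b⟩, rfl⟩
    · rw [card_image_of_injective _ hα.inj]
      omega
  let E0 : Finset (B × Fin 3) := univ.filter (fun e => e.1 ∈ UB ∧ T.m e.2 e.1 ∈ UW)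
  let X : Finset V := univ.filter (fun v => ∀ b i j, i ≠ j → T.p b j = v → (b, i) ∈ E0)
  have hXmem : ∀ b j, b ∈ UB → T.p b j ∉ VZ → T.p b j ∈ X := by
    intro b j hb hv
    have h1 : ∀ x, T.p x j = T.p b j → ¬ (x ∈ D ∧ j ≠ c x) := fun x hx hD =>
      hv (mem_image.2 ⟨(x, j), mem_filter.2 ⟨mem_univ _, hD⟩, hx⟩)
    have h2 : ∀ x i, T.p x j = T.p b j → i ≠ j → (x ∈ UB ↔ T.m i x ∈ UW) := by
      intro x i hx hi
      by_cases hic : i = c x
      · subst hic
        by_contra hcut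
        exact h1 x hx ⟨mem_filter.2 ⟨mem_univ _, hcut⟩, hi.symm⟩
      · exact hU x i hic
    refine mem_filter.2 ⟨mem_univ _, fun x i k hik hx => ?_⟩
    obtain rfl := h.col _ _ _ _ hx
    have h3 : T.m i x ∈ UW := h.face_conn (· ∈ UW) (T.p b k) k
      (fun y hy => by rw [← h2 y _ hy (f3_ne1 k), ← h2 y _ hy (f3_ne2 k)]) b x rfl hx
      (k + 1) i (f3_ne1 k) hik ((h2 b _ rfl (f3_ne1 k)).1 hb)
    exact mem_filter.2 ⟨mem_univ _, (h2 x i hx hik).2 h3, h3⟩
  let K : Finset B := UB.filter (fun b => T.m (c b) b ∈ UW)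
  have hr : T.p b0 (c0 + 1) ≠ T.p b0 (c0 + 2) := fun e => f3_ne12 c0 (h.col _ _ _ _ e)
  have hroot : ∀ j, j ≠ c0 → T.p b0 j ∈ X := by
    intro j hj
    refine hXmem b0 j hb0 fun hv => ?_
    rw [← hVD] at hv
    obtain ⟨b, -, hb⟩ := mem_image.1 hv
    exact hα.ne b j hj hb
  have hXK : K.card + 2 ≤ X.card := by
    have h1 : Disjoint (K.image (fun b => T.p b (α b))) {T.p b0 (c0 + 1), T.p b0 (c0 + 2)} := by
      rw [disjoint_left]
      intro v hv hv'
      obtain ⟨b, -, rfl⟩ := mem_image.1 hv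
      rcases mem_insert.1 hv' with e | e
      · exact hα.ne b _ (f3_ne1 c0) e
      · exact hα.ne b _ (f3_ne2 c0) (mem_singleton.1 e)
    rw [← card_image_of_injective K hα.inj, ← card_pair hr, ← card_union_of_disjoint h1]
    refine card_le_card (union_subset ?_ ?_)
    · intro v hv
      obtain ⟨b, hb, rfl⟩ := mem_image.1 hv
      obtain ⟨hb1, hb2⟩ := mem_filter.1 hb
      refine hXmem b _ hb1 fun hv => ?_
      rw [← hVD] at hv
      obtain ⟨b', hb', e⟩ := mem_image.1 hv
      obtain rfl := hα.inj e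
      exact (mem_filter.1 hb').2 ⟨fun _ => hb2, fun _ => hb1⟩
    · intro v hv
      rcases mem_insert.1 hv with rfl | e
      · exact hroot _ (f3_ne1 c0)
      · rw [mem_singleton.1 e]; exact hroot _ (f3_ne2 c0)
  let P1 : Finset (B × Fin 3) := univ.filter (fun e => e.1 ∈ UB ∧ e.2 ≠ c e.1)
  have hP1 : P1.card = 2 * UB.card := card_pairs_ne UB c
  have hE0 : E0.card ≤ 2 * UB.card + K.card := by
    have : E0 ⊆ P1 ∪ K.image (fun b => (b, c b)) := by
      rintro ⟨b, i⟩ he
      obtain ⟨h1, h2⟩ : b ∈ UB ∧ T.m i b ∈ UW := (mem_filter.1 he).2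
      by_cases hi : i = c b
      · subst hi
        exact mem_union_right _ (mem_image.2 ⟨b, mem_filter.2 ⟨h1, h2⟩, rfl⟩)
      · exact mem_union_left _ (mem_filter.2 ⟨mem_univ _, h1, hi⟩)
    have h1 := (card_le_card this).trans (card_union_le _ _)
    have h2 : (K.image (fun b => (b, c b))).card ≤ K.card := card_image_le
    omega
  have hUW' : P1.card ≤ 2 * UW.card := by
    refine card_le_mul_card_image_of_maps_to (f := fun e : B × Fin 3 => T.m e.2 e.1)
      (fun e he => (hU e.1 e.2 (mem_filter.1 he).2.2).1 (mem_filter.1 he).2.1) 2 fun w _ => ?_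
    obtain ⟨bw, hbw⟩ := hc.2 w
    have : (univ.erase (c bw)).card = 2 := by rw [card_erase_of_mem (mem_univ _)]; simp
    rw [← this]
    refine card_le_card_of_injOn Prod.snd ?_ ?_
    · rintro ⟨b, i⟩ he
      obtain ⟨h1, h2⟩ := mem_filter.1 (mem_coe.1 he)
      refine mem_coe.2 (mem_erase.2 ⟨fun e => ?_, mem_univ _⟩)
      have e' : i = c bw := e
      have h3 : T.m i b = T.m i bw := by
        rw [e'] at h2 ⊢
        exact h2.trans hbw.symm
      obtain rfl := (T.m i).injective h3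
      exact (mem_filter.1 h1).2.2 e'
    · rintro ⟨b, i⟩ he ⟨b', i'⟩ he' e
      have e' : i = i' := e
      subst e'
      have h2 := (mem_filter.1 (mem_coe.1 he)).2
      have h2' := (mem_filter.1 (mem_coe.1 he')).2
      exact Prod.ext ((T.m i).injective (h2.trans h2'.symm)) rfl
  have hE := euler_ineq h.conn h.inv h.surj E0 X (insert b0 UBᶜ) UWᶜ
    (fun b i j hij hv => (mem_filter.1 hv).2 b i j hij rfl)
    (fun e => hb2 (mem_filter.1 ((mem_filter.1 (eq_univ_iff_forall.1 e (T.p b2 0))).2 b2 1 0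
      (by decide) rfl)).2.1)
    (by
      intro f g h1 h2 h3
      have hI : Iv (fun b => b ∈ UB ∧ f b = 0) (fun w => w ∈ UW ∧ g w = 0) := by
        intro b i hi
        constructor
        · rintro ⟨h4, h5⟩
          have h6 := (hU b i hi).1 h4
          exact ⟨h6, by rw [← h1 b i (mem_filter.2 ⟨mem_univ _, h4, h6⟩), h5]⟩
        · rintro ⟨h4, h5⟩
          have h6 := (hU b i hi).2 h4
          exact ⟨h6, by rw [h1 b i (mem_filter.2 ⟨mem_univ _, h6, h4⟩), h5]⟩
      have h0 : b0 ∈ UB ∧ f b0 = 0 := ⟨hb0, h2 b0 (mem_insert_self _ _)⟩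
      constructor
      · intro b
        by_cases hb : b ∈ UB
        · exact ((hUB b).1 hb (fun b => b ∈ UB ∧ f b = 0) (fun w => w ∈ UW ∧ g w = 0) hI h0).2
        · exact h2 b (mem_insert_of_mem (mem_compl.2 hb))
      · intro w
        by_cases hw : w ∈ UW
        · exact ((hUW w).1 hw (fun b => b ∈ UB ∧ f b = 0) (fun w => w ∈ UW ∧ g w = 0) hI h0).2
        · exact h3 w (mem_compl.2 hw))
  have h1 := card_insert_le b0 UBᶜ
  rw [card_compl] at h1
  rw [card_compl, card_W T] at hE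
  have h2 := card_le_univ UB
  have h3 := card_le_univ UW
  rw [card_W T] at h3
  omega

theorem ham_of_colouring (h : T.Ok) {b0 : B} {c0 : Fin 3} {α : B → Fin 3} (hα : T.TM b0 c0 α)
    (t : V → Bool) (ht : ∀ b, t (T.p b (α b + 1)) ≠ t (T.p b (α b + 2))) :
    ∃ c, T.Ham c ∧ ∀ b i, t (T.p b (i + 1)) = t (T.p b (i + 2)) → c b = i := by
  let c : B → Fin 3 := fun b => if t (T.p b (α b)) = t (T.p b (α b + 1)) then α b + 2 else α b + 1
  have hc : ∀ b i, t (T.p b (i + 1)) = t (T.p b (i + 2)) → c b = i := by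
    intro b i hi
    have h1 := ht b
    by_cases e : i = α b
    · subst e; exact absurd hi h1
    rcases f3_cases _ _ e with rfl | rfl
    · rw [f3_11, f3_12] at hi
      exact if_neg (fun e' => h1 (e'.symm.trans hi.symm))
    · rw [f3_21, f3_22] at hi
      exact if_pos hi
  refine ⟨c, conn_of_matching h hα c ?_ ?_, hc⟩
  · refine (Fintype.bijective_iff_surjective_and_card _).2 ⟨fun w => ?_, (card_W T).symm⟩
    have e0 := h.inv 1 2 0 ((T.m 1).symm w) ((T.m 2).symm w) (by decide) (by decide) (by simp)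
    have e1 := h.inv 0 2 1 ((T.m 0).symm w) ((T.m 2).symm w) (by decide) (by decide) (by simp)
    have e2 := h.inv 0 1 2 ((T.m 0).symm w) ((T.m 1).symm w) (by decide) (by decide) (by simp)
    have : ∃ i, t (T.p ((T.m i).symm w) (i + 1)) = t (T.p ((T.m i).symm w) (i + 2)) := by
      by_contra hcon
      push Not at hcon
      have a0 : t (T.p ((T.m 0).symm w) 1) ≠ t (T.p ((T.m 0).symm w) 2) := hcon 0
      have a1 : t (T.p ((T.m 1).symm w) 2) ≠ t (T.p ((T.m 1).symm w) 0) := hcon 1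
      have a2 : t (T.p ((T.m 2).symm w) 0) ≠ t (T.p ((T.m 2).symm w) 1) := hcon 2
      rw [e1, e2] at a0
      rw [e0] at a1
      revert a0 a1 a2
      cases t (T.p ((T.m 2).symm w) 1) <;> cases t (T.p ((T.m 1).symm w) 2) <;>
        cases t (T.p ((T.m 2).symm w) 0) <;> simp
    obtain ⟨i, hi⟩ := this
    refine ⟨(T.m i).symm w, ?_⟩
    show T.m (c _) _ = w
    rw [hc _ i hi]
    simp
  · intro b
    simp only [c]
    split_ifs
    · exact (f3_ne2 _).symm
    · exact (f3_ne1 _).symm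

end Tri

end Crest.Agent.R39
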