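import Crest.Agent.R39.Cycle

/-! Existence of two disjoint Tutte matchings. -/

set_option autoImplicit false
set_option linter.unusedSectionVars false

namespace Crest.Agent.R39

open Finset

namespace Tri

variable {B W V : Type} {T : Tri B W V}
variable [Fintype B] [Fintype W] [Fintype V] [DecidableEq B] [DecidableEq W] [DecidableEq V]

/-- no nontrivial 3-edge-cut with black ends on the side away from `b0` -/
def NoBad (T : Tri B W V) (b0 : B) : Prop :=
  ∀ (SB : Finset B) (SW : Finset W), SW.Nonempty → b0 ∉ SB →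
    (∀ b i, T.m i b ∈ SW → b ∈ SB) → SW.card + 2 ≤ SB.card

theorem card_black_edges (K : Finset B) :
    (univ.filter (fun e : B × Fin 3 => e.1 ∈ K)).card = 3 * K.card := by
  have : univ.filter (fun e : B × Fin 3 => e.1 ∈ K) = K ×ˢ univ := by ext e; simp
  rw [this, card_product, mul_comm]; simp

theorem card_white_edges (T : Tri B W V) (K : Finset W) :
    (univ.filter (fun e : B × Fin 3 => T.m e.2 e.1 ∈ K)).card = 3 * K.card := by
  have : (K ×ˢ (univ : Finset (Fin 3))).card = 3 * K.card := by rw [card_product, mul_comm]; simp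
  rw [← this]
  refine card_equiv (Equiv.prodCongrLeft fun i => T.m i) ?_
  rintro ⟨b, i⟩
  simp

theorem class_bound (h : T.Ok) {b0 : B} (hb : T.NoBad b0) (E0 : Finset (B × Fin 3))
    (h0 : ∀ i, (b0, i) ∉ E0) (KB : Finset B) (KW : Finset W)
    (hcl : ∀ b i, (b, i) ∈ E0 → (b ∈ KB ↔ T.m i b ∈ KW)) (hne : KB.Nonempty ∨ KW.Nonempty) :
    6 ≤ (E0ᶜ.filter (fun e => e.1 ∈ KB)).card + 2 * (E0ᶜ.filter (fun e => T.m e.2 e.1 ∈ KW)).card +
      3 * ((univ.filter (fun b => ∀ i, (b, i) ∉ E0)).filter (fun b => b ∈ KB)).card := by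
  set β := (E0ᶜ.filter (fun e => e.1 ∈ KB)).card with hβ
  set ω := (E0ᶜ.filter (fun e => T.m e.2 e.1 ∈ KW)).card with hω
  set z := ((univ.filter (fun b => ∀ i, (b, i) ∉ E0)).filter (fun b => b ∈ KB)).card with hz
  have hall : ∀ b ∈ KB, (∀ i, (b, i) ∉ E0) → 3 ≤ β ∧ 1 ≤ z := by
    intro b hb1 hb2
    refine ⟨?_, card_pos.2 ⟨b, by simp [hb1, hb2]⟩⟩
    have : ({b} ×ˢ (univ : Finset (Fin 3))).card = 3 := by simp
    rw [← this]
    refine card_le_card ?_
    rintro ⟨x, i⟩ hx
    obtain rfl : b = x := by simpa using hx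
    simp [hb1, hb2]
  by_cases hb0 : b0 ∈ KB
  · have := hall b0 hb0 h0
    omega
  have h1 := h.cut KB KW hne (Or.inl fun e => hb0 (eq_univ_iff_forall.1 e b0))
  have h2 : (T.cutSet KB KW).card ≤ β + ω := by
    refine le_trans (card_le_card ?_) (card_union_le _ _)
    rintro ⟨b, i⟩ he
    have h3 : ¬ (b ∈ KB ↔ T.m i b ∈ KW) := (mem_filter.1 he).2
    have h4 : (b, i) ∉ E0 := fun e => h3 (hcl b i e)
    simp only [mem_union, mem_filter, mem_compl]
    tauto
  have h3 : (E0.filter (fun e => e.1 ∈ KB)) = (E0.filter (fun e => T.m e.2 e.1 ∈ KW)) :=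
    filter_congr fun e he => hcl e.1 e.2 he
  have h4 : (E0.filter (fun e => e.1 ∈ KB)).card + β = 3 * KB.card := by
    rw [← card_black_edges, hβ, ← card_union_of_disjoint (disjoint_filter_filter disjoint_compl_right),
      ← filter_union, union_compl]
  have h5 : (E0.filter (fun e => T.m e.2 e.1 ∈ KW)).card + ω = 3 * KW.card := by
    rw [← card_white_edges T, hω,
      ← card_union_of_disjoint (disjoint_filter_filter disjoint_compl_right),
      ← filter_union, union_compl]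
  rw [h3] at h4
  by_contra hlt
  have hω0 : ω = 0 := by omega
  have hβ3 : KB.card = KW.card + 1 := by omega
  rcases KW.eq_empty_or_nonempty with e | e
  · subst e
    obtain ⟨b, hb1⟩ : KB.Nonempty := card_pos.1 (by omega)
    have := hall b hb1 fun i hi => by simpa using (hcl b i hi).1 hb1
    omega
  · have := hb KB KW e hb0 fun b i hi => by
      by_cases hE : (b, i) ∈ E0
      · exact (hcl b i hE).2 hi
      · have : 0 < ω := card_pos.2 ⟨(b, i), by simp [hE, hi]⟩
        omega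
    omega

theorem key_ineq (h : T.Ok) {b0 : B} (hb : T.NoBad b0) (X : Finset V)
    (hX : ∀ j, T.p b0 j ∉ X) :
    (univ.filter (fun b => ∀ j, T.p b j ∈ X)).card + 2 * X.card ≤
      (univ.filter (fun c : B × Fin 3 => T.p c.1 c.2 ∈ X)).card := by
  classical
  let E0 : Finset (B × Fin 3) :=
    univ.filter (fun e => T.p e.1 (e.2 + 1) ∈ X ∨ T.p e.1 (e.2 + 2) ∈ X)
  let r : Setoid (B ⊕ W) := ⟨fun x y => ∀ f : B ⊕ W → Prop,
    (∀ b i, (b, i) ∈ E0 → (f (.inl b) ↔ f (.inr (T.m i b)))) → (f x ↔ f y),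
    ⟨fun _ _ _ => Iff.rfl, fun h f hf => (h f hf).symm,
      fun h h' f hf => (h f hf).trans (h' f hf)⟩⟩
  obtain ⟨rep, hrep1, hrep2⟩ : ∃ rep : B ⊕ W → B ⊕ W,
      (∀ b i, (b, i) ∈ E0 → rep (.inl b) = rep (.inr (T.m i b))) ∧
      ∀ x (f : B ⊕ W → Prop), (∀ b i, (b, i) ∈ E0 → (f (.inl b) ↔ f (.inr (T.m i b)))) →
        f (rep x) → f x := by
    refine ⟨fun x => (Quotient.mk r x).out, fun b i hi => ?_, fun x f hf => ?_⟩
    · have : Quotient.mk r (.inl b) = Quotient.mk r (.inr (T.m i b)) :=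
        Quotient.sound fun f hf => hf b i hi
      simp only [this]
    · exact (Quotient.mk_out (s := r) x f hf).1
  let S : Finset (B ⊕ W) := univ.image rep
  have hS : ∀ x, rep x ∈ S := fun x => mem_image_of_mem _ (mem_univ x)
  have hE := euler_ineq h.conn h.inv h.surj E0 X S.toLeft S.toRight
    (by
      intro b i j hij hv
      rcases f3_cases j i hij.symm with rfl | rfl
      · exact mem_filter.2 ⟨mem_univ _, Or.inl hv⟩
      · exact mem_filter.2 ⟨mem_univ _, Or.inr hv⟩)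
    (fun e => hX 0 (eq_univ_iff_forall.1 e _))
    (by
      intro f g h1 h2 h3
      have h4 : ∀ x, Sum.elim f g x = 0 := by
        intro x
        refine hrep2 x (fun y => Sum.elim f g y = 0) (fun b i hi => ?_) ?_
        · simp only [Sum.elim_inl, Sum.elim_inr, h1 b i hi]
        · have := hS x
          rcases hx : rep x with b | w
          · exact h2 b (mem_toLeft.2 (hx ▸ this))
          · exact h3 w (mem_toRight.2 (hx ▸ this))
      exact ⟨fun b => h4 (.inl b), fun w => h4 (.inr w)⟩)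
  let Z : Finset B := univ.filter (fun b => ∀ i, (b, i) ∉ E0)
  have h6 : 6 * S.card ≤ E0ᶜ.card + 2 * E0ᶜ.card + 3 * Z.card := by
    have a1 := card_eq_sum_card_fiberwise (s := E0ᶜ) (t := S) (f := fun e => rep (.inl e.1))
      (fun e _ => hS _)
    have a2 := card_eq_sum_card_fiberwise (s := E0ᶜ) (t := S)
      (f := fun e => rep (.inr (T.m e.2 e.1))) (fun e _ => hS _)
    have a3 := card_eq_sum_card_fiberwise (s := Z) (t := S) (f := fun b => rep (.inl b))
      (fun e _ => hS _)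
    calc 6 * S.card = ∑ _s ∈ S, 6 := by simp [mul_comm]
      _ ≤ ∑ s ∈ S, ((E0ᶜ.filter (fun e => rep (.inl e.1) = s)).card +
          2 * (E0ᶜ.filter (fun e => rep (.inr (T.m e.2 e.1)) = s)).card +
          3 * (Z.filter (fun b => rep (.inl b) = s)).card) := by
        refine sum_le_sum fun s hs => ?_
        have := class_bound h hb E0 (fun i hi => by
            rcases (mem_filter.1 hi).2 with e | e <;> exact hX _ e)
          (univ.filter (fun b => rep (.inl b) = s)) (univ.filter (fun w => rep (.inr w) = s))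
          (fun b i hi => by simp [hrep1 b i hi]) (by
            obtain ⟨x, -, rfl⟩ := mem_image.1 hs
            rcases x with b | w
            · exact Or.inl ⟨b, by simp⟩
            · exact Or.inr ⟨w, by simp⟩)
        simpa only [mem_filter, mem_univ, true_and] using this
      _ = _ := by
        rw [sum_add_distrib, sum_add_distrib, ← mul_sum, ← mul_sum, ← a1, ← a2, ← a3]
  have h7 : E0ᶜ.card + E0.card = 3 * Fintype.card B := by
    rw [card_compl_add_card, Fintype.card_prod, Fintype.card_fin, mul_comm]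
  have h8 : E0.card + Z.card + (univ.filter (fun b => ∀ j, T.p b j ∈ X)).card ≤
      Fintype.card B + (univ.filter (fun c : B × Fin 3 => T.p c.1 c.2 ∈ X)).card := by
    simp only [E0, Z, card_filter, Fintype.sum_prod_type, Fin.sum_univ_three, mem_filter,
      mem_univ, true_and, Fin.forall_fin_succ, IsEmpty.forall_iff, and_true]
    rw [← card_univ, card_eq_sum_ones, ← sum_add_distrib, ← sum_add_distrib, ← sum_add_distrib]
    refine sum_le_sum fun b _ => ?_
    have e01 : (0 : Fin 3) + 1 = 1 := rfl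
    have e02 : (0 : Fin 3) + 2 = 2 := rfl
    have e11 : (1 : Fin 3) + 1 = 2 := rfl
    have e12 : (1 : Fin 3) + 2 = 0 := rfl
    have e21 : (2 : Fin 3) + 1 = 0 := rfl
    have e22 : (2 : Fin 3) + 2 = 1 := rfl
    have s1 : Fin.succ (0 : Fin 2) = (1 : Fin 3) := rfl
    have s2 : Fin.succ (Fin.succ (0 : Fin 1)) = (2 : Fin 3) := rfl
    simp only [s1, s2, e01, e02, e11, e12, e21, e22]
    by_cases a0 : T.p b 0 ∈ X <;> by_cases a1 : T.p b 1 ∈ X <;> by_cases a2 : T.p b 2 ∈ X <;>
      simp [a0, a1, a2]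
  have h9 := card_toLeft_add_card_toRight (u := S)
  omega

theorem state_of_third (h : T.Ok) (b0 : B) (c0 : Fin 3) (τ : B → Fin 3)
    (hN : ∀ v, (univ.filter (fun c : B × Fin 3 =>
      c.1 ≠ b0 ∧ c.2 ≠ τ c.1 ∧ T.p c.1 c.2 = v)).card ≤ 2)
    (hr : ∀ b j k, b ≠ b0 → j ≠ τ b → T.p b j ≠ T.p b0 k) : ∃ α σ, T.State b0 c0 α σ := by
  obtain ⟨f, hf1, hf2⟩ := (all_card_le_biUnion_card_iff_exists_injective
    (fun b : {b // b ≠ b0} => (univ.erase (τ b)).image (T.p b))).1 (by
      intro s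
      have h1 := card_pairs_ne (s.map (Function.Embedding.subtype _)) τ
      have h2 := card_le_mul_card_image_of_maps_to
        (s := univ.filter (fun e : B × Fin 3 =>
          e.1 ∈ s.map (Function.Embedding.subtype _) ∧ e.2 ≠ τ e.1))
        (t := s.biUnion fun b : {b // b ≠ b0} => (univ.erase (τ b)).image (T.p b))
        (f := fun e => T.p e.1 e.2)
        (by
          rintro ⟨b, j⟩ he
          obtain ⟨h3, h4⟩ := (mem_filter.1 he).2
          obtain ⟨x, hx, rfl⟩ := mem_map.1 h3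
          exact mem_biUnion.2 ⟨x, hx, mem_image.2 ⟨j, mem_erase.2 ⟨h4, mem_univ _⟩, rfl⟩⟩) 2
        (by
          intro v _
          refine le_trans (card_le_card ?_) (hN v)
          rintro ⟨b, j⟩ he
          obtain ⟨h3, h4⟩ := mem_filter.1 he
          obtain ⟨h5, h6⟩ := (mem_filter.1 h3).2
          obtain ⟨x, -, rfl⟩ := mem_map.1 h5
          exact mem_filter.2 ⟨mem_univ _, x.2, h6, h4⟩)
      rw [h1, card_map] at h2
      omega)
  have hf3 : ∀ b : {b // b ≠ b0}, ∃ j, j ≠ τ b ∧ T.p b j = f b := fun b => by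
    obtain ⟨j, h1, h2⟩ := mem_image.1 (hf2 b)
    exact ⟨j, (mem_erase.1 h1).1, h2⟩
  choose a ha1 ha2 using hf3
  have hs : ∀ b : {b // b ≠ b0}, ∃ k, k ≠ τ b ∧ k ≠ a b := fun b => f3_third _ _
  choose s hs1 hs2 using hs
  let α : B → Fin 3 := fun b => if hb : b = b0 then c0 else a ⟨b, hb⟩
  let σ : B → Fin 3 := fun b => if hb : b = b0 then c0 else s ⟨b, hb⟩
  have hα0 : α b0 = c0 := dif_pos rfl
  have hσ0 : σ b0 = c0 := dif_pos rfl
  have hα1 : ∀ b (hb : b ≠ b0), α b = a ⟨b, hb⟩ := fun b hb => dif_neg hb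
  have hσ1 : ∀ b (hb : b ≠ b0), σ b = s ⟨b, hb⟩ := fun b hb => dif_neg hb
  have mk : ∀ γ : B → Fin 3, γ b0 = c0 → (∀ b, b ≠ b0 → γ b ≠ τ b) →
      (∀ b b', b ≠ b0 → b' ≠ b0 → T.p b (γ b) = T.p b' (γ b') → b = b') → T.TM b0 c0 γ := by
    intro γ g0 g1 g2
    refine ⟨fun b b' e => ?_, g0, fun b j hj e => ?_⟩
    · by_cases hb : b = b0 <;> by_cases hb' : b' = b0
      · rw [hb, hb']
      · subst hb
        exact absurd e.symm (hr b' _ _ hb' (g1 b' hb'))
      · subst hb'
        exact absurd e (hr b _ _ hb (g1 b hb))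
      · exact g2 b b' hb hb' e
    · by_cases hb : b = b0
      · subst hb
        exact hj ((h.col _ _ _ _ e).symm.trans g0)
      · exact hr b _ _ hb (g1 b hb) e
  have a1 : ∀ b, b ≠ b0 → α b ≠ τ b := fun b hb => by rw [hα1 b hb]; exact ha1 ⟨b, hb⟩
  have s1 : ∀ b, b ≠ b0 → σ b ≠ τ b := fun b hb => by rw [hσ1 b hb]; exact hs1 ⟨b, hb⟩
  have as : ∀ b, b ≠ b0 → α b ≠ σ b := fun b hb => by
    rw [hα1 b hb, hσ1 b hb]; exact (hs2 ⟨b, hb⟩).symm
  have hα : T.TM b0 c0 α := mk α hα0 a1 fun b b' hb hb' e => by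
    rw [hα1 b hb, hα1 b' hb'] at e
    exact congrArg Subtype.val
      (hf1 ((ha2 ⟨b, hb⟩).symm.trans (e.trans (ha2 ⟨b', hb'⟩))))
  refine ⟨α, σ, hα, mk σ hσ0 s1 fun b b' hb hb' e => ?_, as⟩
  by_contra hne
  obtain ⟨x, hx⟩ := hα.surj h (T.p b (σ b)) (fun j _ => hr b _ _ hb (s1 b hb))
  have hx0 : x ≠ b0 := fun e' => hr b _ (α x) hb (s1 b hb) (by rw [← hx, e'])
  have hxb : x ≠ b := fun e' => as b hb (by rw [e'] at hx; exact h.col _ _ _ _ hx)
  have hxb' : x ≠ b' := fun e' => as b' hb' (by rw [e', e] at hx; exact h.col _ _ _ _ hx)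
  have h3 : ({(x, α x), (b, σ b), (b', σ b')} : Finset (B × Fin 3)).card = 3 :=
    card_eq_three.2 ⟨_, _, _, fun e => hxb (Prod.mk.inj e).1, fun e => hxb' (Prod.mk.inj e).1,
      fun e => hne (Prod.mk.inj e).1, rfl⟩
  have h4 := hN (T.p b (σ b))
  have h5 : ({(x, α x), (b, σ b), (b', σ b')} : Finset (B × Fin 3)) ⊆
      univ.filter (fun c : B × Fin 3 => c.1 ≠ b0 ∧ c.2 ≠ τ c.1 ∧ T.p c.1 c.2 = T.p b (σ b)) := by
    intro c hc
    simp only [mem_insert, mem_singleton] at hc
    rcases hc with rfl | rfl | rfl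
    · exact mem_filter.2 ⟨mem_univ _, hx0, a1 x hx0, hx⟩
    · exact mem_filter.2 ⟨mem_univ _, hb, s1 b hb, rfl⟩
    · exact mem_filter.2 ⟨mem_univ _, hb', s1 b' hb', e.symm⟩
  have := card_le_card h5
  omega

theorem exists_state (h : T.Ok) {b0 : B} (hb : T.NoBad b0) (c0 : Fin 3) :
    ∃ α σ, T.State b0 c0 α σ := by
  let R : Finset V := univ.image (T.p b0)
  have hR : ∀ j, T.p b0 j ∈ R := fun j => mem_image_of_mem _ (mem_univ j)
  have hRc : R.card = 3 := by
    rw [card_image_of_injective _ (fun j k e => h.col _ _ _ _ e)]; simp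
  let k : V → ℕ := fun v =>
    (univ.filter (fun c : B × Fin 3 => c.1 ≠ b0 ∧ T.p c.1 c.2 = v)).card
  have hsum : ∀ X : Finset V, ∑ v ∈ X, k v =
      (univ.filter (fun c : B × Fin 3 => c.1 ≠ b0 ∧ T.p c.1 c.2 ∈ X)).card := by
    intro X
    rw [card_eq_sum_card_fiberwise (f := fun c : B × Fin 3 => T.p c.1 c.2) (t := X)
      (fun c hc => (mem_filter.1 hc).2.2)]
    refine sum_congr rfl fun v hv => congrArg card ?_
    ext c
    simp only [mem_filter, mem_univ, true_and]
    exact ⟨fun e => ⟨⟨e.1, e.2 ▸ hv⟩, e.2⟩, fun e => ⟨e.1.1, e.2⟩⟩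
  have hkey : ∀ X : Finset V, Disjoint X R →
      (univ.filter (fun b => ∀ j, T.p b j ∈ X)).card + 2 * X.card ≤ ∑ v ∈ X, k v := by
    intro X hX
    have hX' : ∀ j, T.p b0 j ∉ X := fun j e => disjoint_left.1 hX e (hR j)
    refine (key_ineq h hb X hX').trans ?_
    rw [hsum]
    refine card_le_card fun c hc => ?_
    have := (mem_filter.1 hc).2
    exact mem_filter.2 ⟨mem_univ _, fun e => hX' c.2 (e ▸ this), this⟩
  have hk2 : ∀ v, v ∉ R → 2 ≤ k v := by
    intro v hv
    have := hkey {v} (disjoint_singleton_left.2 hv)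
    simp only [card_singleton, sum_singleton] at this
    omega
  let slot : V → ℕ := fun v => if v ∈ R then k v else k v - 2
  obtain ⟨f, hf1, hf2⟩ := (all_card_le_biUnion_card_iff_exists_injective
    (fun b : {b // b ≠ b0} => (univ.image (T.p b)).sigma (fun v => range (slot v)))).1 (by
      intro s
      let X : Finset V := s.biUnion (fun b => univ.image (T.p b))
      have h1 : (s.biUnion fun b : {b // b ≠ b0} =>
          (univ.image (T.p b)).sigma (fun v => range (slot v))) =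
          X.sigma (fun v => range (slot v)) := by
        ext x
        simp only [X, mem_biUnion, mem_sigma]
        tauto
      rw [h1, card_sigma]
      simp only [card_range]
      rw [← sum_filter_add_sum_filter_not X (fun v => v ∈ R)]
      have h2 : ∑ v ∈ X with v ∈ R, slot v = ∑ v ∈ X with v ∈ R, k v :=
        sum_congr rfl fun v hv => if_pos (mem_filter.1 hv).2
      have h3 : ∑ v ∈ X with v ∉ R, slot v + 2 * (X.filter (fun v => v ∉ R)).card =
          ∑ v ∈ X with v ∉ R, k v := by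
        rw [mul_comm, ← smul_eq_mul, ← sum_const, ← sum_add_distrib]
        refine sum_congr rfl fun v hv => ?_
        have := hk2 v (mem_filter.1 hv).2
        simp only [slot, if_neg (mem_filter.1 hv).2]
        omega
      have h4 := hkey (X.filter (fun v => v ∉ R))
        (disjoint_left.2 fun v hv => (mem_filter.1 hv).2)
      have h5 : s.map (Function.Embedding.subtype _) ⊆
          univ.filter (fun b => ∀ j, T.p b j ∈ X.filter (fun v => v ∉ R)) ∪
          (univ.filter (fun c : B × Fin 3 =>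
            c.1 ≠ b0 ∧ T.p c.1 c.2 ∈ X.filter (fun v => v ∈ R))).image Prod.fst := by
        intro b hb
        obtain ⟨x, hx, rfl⟩ := mem_map.1 hb
        have h6 : ∀ j, T.p x j ∈ X := fun j =>
          mem_biUnion.2 ⟨x, hx, mem_image_of_mem _ (mem_univ j)⟩
        by_cases h7 : ∀ j, T.p x j ∉ R
        · exact mem_union_left _ (mem_filter.2 ⟨mem_univ _, fun j => mem_filter.2 ⟨h6 j, h7 j⟩⟩)
        · push Not at h7
          obtain ⟨j, hj⟩ := h7
          exact mem_union_right _ (mem_image.2 ⟨(x, j),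
            mem_filter.2 ⟨mem_univ _, x.2, mem_filter.2 ⟨h6 j, hj⟩⟩, rfl⟩)
      have h6 := (card_le_card h5).trans ((card_union_le _ _).trans
        (Nat.add_le_add_left card_image_le _))
      rw [card_map, ← hsum] at h6
      omega)
  have hf3 : ∀ b : {b // b ≠ b0}, ∃ j, T.p b j = (f b).1 := fun b => by
    obtain ⟨j, -, h2⟩ := mem_image.1 (mem_sigma.1 (hf2 b)).1
    exact ⟨j, h2⟩
  choose t ht using hf3
  let τ : B → Fin 3 := fun b => if hb : b = b0 then c0 else t ⟨b, hb⟩
  have hτ : ∀ b (hb : b ≠ b0), τ b = t ⟨b, hb⟩ := fun b hb => dif_neg hb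
  let N : V → ℕ := fun v => (univ.filter (fun c : B × Fin 3 =>
      c.1 ≠ b0 ∧ c.2 ≠ τ c.1 ∧ T.p c.1 c.2 = v)).card
  have hN2 : ∀ v, v ∉ R → 2 ≤ N v := by
    intro v hv
    have h1 : (univ.filter (fun c : B × Fin 3 =>
        c.1 ≠ b0 ∧ c.2 = τ c.1 ∧ T.p c.1 c.2 = v)).card ≤ (range (slot v)).card := by
      refine card_le_card_of_injOn
        (fun c => if hb : c.1 = b0 then 0 else (f ⟨c.1, hb⟩).2) ?_ ?_
      · rintro ⟨b, j⟩ hc
        obtain ⟨h2, h3, h4⟩ : b ≠ b0 ∧ j = τ b ∧ T.p b j = v := (mem_filter.1 (mem_coe.1 hc)).2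
        have h5 := (mem_sigma.1 (hf2 ⟨b, h2⟩)).2
        rw [← ht, ← hτ b h2, ← h3, h4] at h5
        simpa [h2] using h5
      · rintro ⟨b, j⟩ hc ⟨b', j'⟩ hc' e
        obtain ⟨h2, h3, h4⟩ : b ≠ b0 ∧ j = τ b ∧ T.p b j = v := (mem_filter.1 (mem_coe.1 hc)).2
        obtain ⟨h2', h3', h4'⟩ : b' ≠ b0 ∧ j' = τ b' ∧ T.p b' j' = v :=
          (mem_filter.1 (mem_coe.1 hc')).2
        simp only [dif_neg h2, dif_neg h2'] at e
        have h5 : (f ⟨b, h2⟩).1 = (f ⟨b', h2'⟩).1 := by
          rw [← ht, ← ht, ← hτ b h2, ← hτ b' h2', ← h3, ← h3', h4, h4']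
        have h6 : f ⟨b, h2⟩ = f ⟨b', h2'⟩ := Sigma.ext h5 (heq_of_eq e)
        obtain rfl : b = b' := congrArg Subtype.val (hf1 h6)
        rw [h3, h3']
    have h2 : k v ≤ (univ.filter (fun c : B × Fin 3 =>
        c.1 ≠ b0 ∧ c.2 = τ c.1 ∧ T.p c.1 c.2 = v)).card + N v := by
      refine le_trans (card_le_card fun c hc => ?_) (card_union_le _ _)
      simp only [mem_union, mem_filter, mem_univ, true_and] at hc ⊢
      tauto
    have h3 := hk2 v hv
    simp only [card_range, slot, if_neg hv] at h1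
    omega
  have hNs : ∑ v, N v = 2 * ({b0}ᶜ : Finset B).card := by
    rw [← card_pairs_ne {b0}ᶜ τ, card_eq_sum_card_fiberwise
      (f := fun c : B × Fin 3 => T.p c.1 c.2) (t := univ) (fun c _ => mem_univ _)]
    refine sum_congr rfl fun v _ => congrArg card ?_
    ext c
    simp [and_assoc]
  rw [card_compl, card_singleton, ← sum_filter_add_sum_filter_not univ (fun v => v ∈ R)] at hNs
  have hc : (univ.filter (fun v => v ∉ R)).card = Fintype.card B - 1 := by
    rw [filter_not, filter_mem_eq_inter, univ_inter, card_univ_sdiff, h.euler, hRc]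
    omega
  have hlow : ∀ v, v ∉ R → N v + 2 * (Fintype.card B - 1) ≤ ∑ v with v ∉ R, N v + 2 := by
    intro v hv
    have h1 : v ∈ univ.filter (fun v => v ∉ R) := mem_filter.2 ⟨mem_univ _, hv⟩
    rw [← add_sum_erase _ _ h1]
    have h2 : _ ≤ ∑ x ∈ (univ.filter (fun v => v ∉ R)).erase v, N x :=
      card_nsmul_le_sum ((univ.filter (fun v => v ∉ R)).erase v) N 2
      (fun u hu => hN2 u (mem_filter.1 (mem_of_mem_erase hu)).2)
    rw [card_erase_of_mem h1, hc, smul_eq_mul] at h2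
    have h3 := card_pos.2 ⟨v, h1⟩
    rw [hc] at h3
    omega
  have hlow' : 2 * (Fintype.card B - 1) ≤ ∑ v with v ∉ R, N v := by
    have h2 : _ ≤ ∑ x ∈ univ.filter (fun v => v ∉ R), N x :=
      card_nsmul_le_sum (univ.filter (fun v => v ∉ R)) N 2
      (fun u hu => hN2 u (mem_filter.1 hu).2)
    rw [hc, smul_eq_mul] at h2
    omega
  have hN0 : ∀ v, v ∈ R → N v = 0 := by
    intro v hv
    have : N v ≤ ∑ x ∈ univ.filter (fun v => v ∈ R), N x :=
      single_le_sum (f := N) (fun _ _ => Nat.zero_le _)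
      (show v ∈ univ.filter (fun v => v ∈ R) from mem_filter.2 ⟨mem_univ _, hv⟩)
    omega
  refine state_of_third h b0 c0 τ (fun v => ?_) fun b j l h1 h2 h3 => ?_
  · show N v ≤ 2
    by_cases hv : v ∈ R
    · rw [hN0 v hv]; omega
    · have := hlow v hv
      omega
  · have h4 : 0 < N (T.p b0 l) := card_pos.2 ⟨(b, j), mem_filter.2 ⟨mem_univ _, h1, h2, h3⟩⟩
    rw [hN0 _ (hR l)] at h4
    omega

end Tri

end Crest.Agent.R39
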