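import Mathlib

/-! Linear algebra of two-dimensional complexes: the Euler inequality and exactness. -/

set_option autoImplicit false

namespace Crest.Agent.R39

open Finset Matrix

variable {K P E Q : Type} [Field K] [Fintype P] [Fintype E] [Fintype Q]
  [DecidableEq P] [DecidableEq E] [DecidableEq Q]

theorem rank_of_inj {m n : Type} [Fintype m] [Fintype n] (A : Matrix m n K)
    (h : ∀ v, A *ᵥ v = 0 → v = 0) : A.rank = Fintype.card n := by
  have : Function.Injective A.mulVecLin := by
    rw [← LinearMap.ker_eq_bot, LinearMap.ker_eq_bot']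
    exact h
  rw [Matrix.rank, LinearMap.finrank_range_of_inj this, Module.finrank_fintype_fun_eq_card]

/-- signed incidence matrix -/
def inc (s t : E → P) : Matrix E P K :=
  fun e x => (if s e = x then 1 else 0) - (if t e = x then 1 else 0)

omit [Fintype E] [DecidableEq E] in
theorem inc_mulVec (s t : E → P) (f : P → K) (e : E) :
    (inc s t *ᵥ f) e = f (s e) - f (t e) := by
  simp [inc, mulVec, dotProduct, sub_mul, sum_sub_distrib]

omit [Fintype P] [DecidableEq E] in
theorem inc_transpose_mulVec (s t : E → P) (z : E → K) (x : P) :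
    ((inc s t)ᵀ *ᵥ z) x = ∑ e with s e = x, z e - ∑ e with t e = x, z e := by
  simp [inc, mulVec, dotProduct, sub_mul, sum_sub_distrib, sum_filter]

/-- extension by zero -/
def ext0 (X : Finset Q) (F : X → K) : Q → K := fun q => if h : q ∈ X then F ⟨q, h⟩ else 0

omit [Fintype E] [DecidableEq E] in
theorem submatrix_mulVec_ext0 {E' : Type} (A : Matrix E Q K) (g : E' → E) (X : Finset Q)
    (F : X → K) (e : E') :
    (A.submatrix g (Subtype.val : X → Q) *ᵥ F) e = (A *ᵥ ext0 X F) (g e) := by
  simp only [mulVec, dotProduct, submatrix_apply]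
  rw [← sum_subset (subset_univ X) (fun q _ hq => by simp [ext0, hq]), ← sum_coe_sort X]
  exact sum_congr rfl fun q _ => by simp [ext0]

omit [Fintype Q] in
theorem eq_zero_of_ext0 (X : Finset Q) (F : X → K) (h : ∀ q, ext0 X F q = 0) : F = 0 := by
  funext q
  have := h q
  simpa [ext0] using this

theorem euler_le (s t : E → P) (l r : E → Q)
    (h0 : ∀ (F : Q → K) x, ∑ e with s e = x, (F (l e) - F (r e)) =
      ∑ e with t e = x, (F (l e) - F (r e)))
    (E0 : Finset E) (X : Finset Q) (S : Finset P)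
    (hX : ∀ e, e ∉ E0 → l e ∉ X ∧ r e ∉ X)
    (hinj : ∀ F : Q → K, (∀ q, q ∉ X → F q = 0) → (∀ e, F (l e) = F (r e)) → ∀ q, F q = 0)
    (hS : ∀ f : P → K, (∀ e ∈ E0, f (s e) = f (t e)) → (∀ x ∈ S, f x = 0) → ∀ x, f x = 0) :
    X.card + Fintype.card P ≤ E0.card + S.card := by
  let A : Matrix E0 (Sᶜ : Finset P) K := (inc s t).submatrix Subtype.val Subtype.val
  let B : Matrix E0 X K := (inc l r).submatrix Subtype.val Subtype.val
  have hA : A.rank = Fintype.card (Sᶜ : Finset P) := by
    refine rank_of_inj A fun v hv => eq_zero_of_ext0 _ v (hS _ (fun e he => ?_) fun x hx => ?_)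
    · have := congrFun hv ⟨e, he⟩
      rw [submatrix_mulVec_ext0, inc_mulVec] at this
      exact sub_eq_zero.1 this
    · simp [ext0, hx]
  have hz : ∀ (v : X → K) e, e ∉ E0 → ext0 X v (l e) - ext0 X v (r e) = 0 := by
    intro v e he
    simp [ext0, (hX e he).1, (hX e he).2]
  have hB : B.rank = Fintype.card X := by
    refine rank_of_inj B fun v hv => eq_zero_of_ext0 _ v (hinj _ (fun q hq => ?_) fun e => ?_)
    · simp [ext0, hq]
    · by_cases he : e ∈ E0
      · have := congrFun hv ⟨e, he⟩
        rw [submatrix_mulVec_ext0, inc_mulVec] at this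
        exact sub_eq_zero.1 this
      · exact sub_eq_zero.1 (hz v e he)
  have hAB : Aᵀ * B = 0 := by
    refine Matrix.ext_iff_mulVec.2 fun v => ?_
    rw [← mulVec_mulVec, zero_mulVec]
    funext x
    have h1 : (Aᵀ *ᵥ (B *ᵥ v)) x = ((inc s t)ᵀ *ᵥ ext0 E0 (B *ᵥ v)) x :=
      submatrix_mulVec_ext0 (inc s t)ᵀ Subtype.val E0 (B *ᵥ v) x
    have h2 : ext0 E0 (B *ᵥ v) = fun e => ext0 X v (l e) - ext0 X v (r e) := by
      funext e
      by_cases he : e ∈ E0
      · have : ext0 E0 (B *ᵥ v) e = (B *ᵥ v) ⟨e, he⟩ := by simp [ext0, he]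
        rw [this, submatrix_mulVec_ext0, inc_mulVec]
      · rw [hz v e he]; simp [ext0, he]
    rw [h1, h2, inc_transpose_mulVec, h0, sub_self]
    rfl
  have h := rank_add_rank_le_card_of_mul_eq_zero hAB
  rw [rank_transpose, hA, hB, Fintype.card_coe, Fintype.card_coe, Fintype.card_coe,
    card_compl] at h
  have := card_le_univ S
  omega

omit [DecidableEq E] in
theorem exact_of_euler (s t : E → P) (l r : E → Q)
    (h0 : ∀ (F : Q → K) x, ∑ e with s e = x, (F (l e) - F (r e)) =
      ∑ e with t e = x, (F (l e) - F (r e)))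
    (x0 : P) (q0 : Q)
    (hP : ∀ f : P → K, (∀ e, f (s e) = f (t e)) → ∀ x, f x = f x0)
    (hQ : ∀ F : Q → K, (∀ e, F (l e) = F (r e)) → ∀ q, F q = F q0)
    (hc : Fintype.card E + 2 = Fintype.card P + Fintype.card Q)
    (z : E → K) (hz : ∀ x, ∑ e with s e = x, z e = ∑ e with t e = x, z e) :
    ∃ F : Q → K, F q0 = 0 ∧ ∀ e, z e = F (l e) - F (r e) := by
  let S : Finset P := {x0}ᶜ
  let X : Finset Q := {q0}ᶜ
  let A : Matrix E S K := (inc s t).submatrix id Subtype.val
  let B : Matrix E X K := (inc l r).submatrix id Subtype.val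
  have hA : A.rank = Fintype.card S := by
    refine rank_of_inj A fun v hv => eq_zero_of_ext0 _ v fun x => ?_
    rw [hP (ext0 S v) (fun e => ?_) x]
    · simp [ext0, S]
    · have := congrFun hv e
      rw [submatrix_mulVec_ext0, inc_mulVec] at this
      exact sub_eq_zero.1 this
  have hB : B.rank = Fintype.card X := by
    refine rank_of_inj B fun v hv => eq_zero_of_ext0 _ v fun x => ?_
    rw [hQ (ext0 X v) (fun e => ?_) x]
    · simp [ext0, X]
    · have := congrFun hv e
      rw [submatrix_mulVec_ext0, inc_mulVec] at this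
      exact sub_eq_zero.1 this
  have hker : ∀ w : E → K, (∀ x, ∑ e with s e = x, w e = ∑ e with t e = x, w e) →
      w ∈ LinearMap.ker Aᵀ.mulVecLin := by
    intro w hw
    rw [LinearMap.mem_ker, mulVecLin_apply]
    funext x
    have : (Aᵀ *ᵥ w) x = ((inc s t)ᵀ *ᵥ w) x := rfl
    rw [this, inc_transpose_mulVec, hw, sub_self]
    rfl
  have hBv : ∀ v e, (B *ᵥ v) e = ext0 X v (l e) - ext0 X v (r e) := fun v e => by
    rw [submatrix_mulVec_ext0, inc_mulVec]; rfl
  have hle : LinearMap.range B.mulVecLin ≤ LinearMap.ker Aᵀ.mulVecLin := by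
    rintro _ ⟨v, rfl⟩
    refine hker _ fun x => ?_
    simp only [mulVecLin_apply, hBv]
    exact h0 _ x
  have h1 := LinearMap.finrank_range_add_finrank_ker Aᵀ.mulVecLin
  have h2 : Module.finrank K (LinearMap.range Aᵀ.mulVecLin) = Fintype.card S := by
    rw [← hA, ← rank_transpose A]; rfl
  have h3 : Module.finrank K (LinearMap.range B.mulVecLin) = Fintype.card X := hB
  have h4 : Fintype.card S + 1 = Fintype.card P := by
    have : 0 < Fintype.card P := Fintype.card_pos_iff.2 ⟨x0⟩
    rw [Fintype.card_coe, card_compl, card_singleton]; omega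
  have h5 : Fintype.card X + 1 = Fintype.card Q := by
    have : 0 < Fintype.card Q := Fintype.card_pos_iff.2 ⟨q0⟩
    rw [Fintype.card_coe, card_compl, card_singleton]; omega
  rw [h2, Module.finrank_fintype_fun_eq_card] at h1
  have heq := Submodule.eq_of_le_of_finrank_le hle (by omega)
  obtain ⟨v, hv⟩ : z ∈ LinearMap.range B.mulVecLin := heq ▸ hker z hz
  refine ⟨ext0 X v, by simp [ext0, X], fun e => ?_⟩
  rw [← hv, mulVecLin_apply, hBv]

end Crest.Agent.R39
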