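import Crest.Agent.R39.Hall

/-! The loops of a pair of Tutte matchings bound discs. -/

set_option autoImplicit false
set_option linter.unusedSectionVars false

namespace Crest.Agent.R39

open Finset

/-- the turning sign -/
def dsg (j k : Fin 3) : ℝ := if k = j + 1 then 1 else -1

namespace Tri

variable {B W V : Type} {T : Tri B W V}
variable [Fintype B] [Fintype W] [Fintype V] [DecidableEq B] [DecidableEq W] [DecidableEq V]

/-- an alternating cycle of two Tutte matchings -/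
structure Loop (T : Tri B W V) (b0 : B) (α σ : B → Fin 3) (O : Finset B) : Prop where
  ne : O.Nonempty
  root : b0 ∉ O
  inv : ∀ x y, T.p x (α x) = T.p y (σ y) → (x ∈ O ↔ y ∈ O)
  min : ∀ f : B → ℝ, (∀ x ∈ O, ∀ y ∈ O, T.p x (α x) = T.p y (σ y) → f x = f y) →
    ∀ x ∈ O, ∀ y ∈ O, f x = f y

/-- the chain of a loop -/
def Z (α σ : B → Fin 3) (O : Finset B) (b : B) (j : Fin 3) : ℝ :=
  if b ∈ O then (if j = α b then 1 else 0) - (if j = σ b then 1 else 0) else 0

/-- indicator function -/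
def ind (R : Finset W) (w : W) : ℝ := if w ∈ R then 1 else 0

theorem sum_mul_Z (α σ : B → Fin 3) (O : Finset B) (F : B × Fin 3 → ℝ) :
    ∑ c, F c * Z α σ O c.1 c.2 = ∑ b ∈ O, (F (b, α b) - F (b, σ b)) := by
  rw [Fintype.sum_prod_type, ← sum_subset (subset_univ O)]
  · refine sum_congr rfl fun b hb => ?_
    simp [Z, hb, mul_sub, sum_sub_distrib]
  · intro b _ hb
    simp [Z, hb]

variable {b0 : B} {c0 : Fin 3} {α σ : B → Fin 3} {O : Finset B}

theorem State.perm (h : T.Ok) (hs : T.State b0 c0 α σ) :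
    ∃ e : B → B, Function.Bijective e ∧ ∀ y, T.p (e y) (α (e y)) = T.p y (σ y) := by
  choose e he using fun y => hs.ha.surj h (T.p y (σ y)) (fun j hj => hs.hs.ne y j hj)
  refine ⟨e, Finite.injective_iff_bijective.1 fun y y' hy => hs.hs.inj ?_, he⟩
  show T.p y (σ y) = T.p y' (σ y')
  rw [← he, ← he, hy]

theorem Loop.exact (h : T.Ok) (hs : T.State b0 c0 α σ) (hO : T.Loop b0 α σ O) (w0 : W) :
    ∃ H : W → ℝ, H w0 = 0 ∧ ∀ b j, Z α σ O b j = H (T.m (j + 1) b) - H (T.m (j + 2) b) := by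
  refine h.exact w0 (fun c => Z α σ O c.1 c.2) (fun b => ?_) fun v => ?_
  · by_cases hb : b ∈ O <;> simp [Z, hb, sum_sub_distrib]
  · have h1 := sum_mul_Z α σ O (fun c => if T.p c.1 c.2 = v then 1 else 0)
    simp only [ite_mul, one_mul, zero_mul] at h1
    rw [sum_filter, h1, sum_sub_distrib, sub_eq_zero]
    obtain ⟨e, he1, he2⟩ := hs.perm h
    symm
    refine sum_bijective e he1 (fun y => (hO.inv _ _ (he2 y)).symm) fun y _ => ?_
    rw [he2]

/-- boundaries supported on a loop are multiples of the loop -/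
theorem Loop.mult (h : T.Ok) (hs : T.State b0 c0 α σ) (hO : T.Loop b0 α σ O) (G : W → ℝ)
    (hG : ∀ b j, Z α σ O b j = 0 → G (T.m (j + 1) b) = G (T.m (j + 2) b)) :
    ∃ l : ℝ, ∀ b j, G (T.m (j + 1) b) - G (T.m (j + 2) b) = l * Z α σ O b j := by
  have hne : ∀ b ∈ O, α b ≠ σ b := fun b hb => hs.ne b fun e => hO.root (e ▸ hb)
  let z : B → Fin 3 → ℝ := fun b j => G (T.m (j + 1) b) - G (T.m (j + 2) b)
  have hz : ∀ b j, ¬ (b ∈ O ∧ (j = α b ∨ j = σ b)) → z b j = 0 := by
    intro b j hj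
    refine sub_eq_zero.2 (hG b j ?_)
    by_cases hb : b ∈ O
    · have h1 : j ≠ α b := fun e => hj ⟨hb, Or.inl e⟩
      have h2 : j ≠ σ b := fun e => hj ⟨hb, Or.inr e⟩
      simp [Z, h1, h2]
    · simp [Z, hb]
  have h1 : ∀ b ∈ O, z b (α b) + z b (σ b) = 0 := by
    intro b hb
    have h2 : ∑ j, z b j = 0 := by
      rw [Fin.sum_univ_three]
      show G (T.m 1 b) - G (T.m 2 b) + (G (T.m 2 b) - G (T.m 0 b)) +
        (G (T.m 0 b) - G (T.m 1 b)) = 0
      ring
    rw [← h2, ← sum_pair (hne b hb)]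
    refine sum_subset (subset_univ _) fun j _ hj => hz b j fun e => hj ?_
    simpa using e.2
  have h2 := hO.min (fun b => z b (α b)) (by
    intro x hx y hy e
    have h3 : ∑ c : B × Fin 3 with T.p c.1 c.2 = T.p x (α x), z c.1 c.2 = 0 :=
      sum_face h.inv G _
    have h4 : ((x, α x) : B × Fin 3) ≠ (y, σ y) := fun e' => by
      obtain ⟨rfl, e2⟩ := Prod.mk.inj e'
      exact hne x hx e2
    have h5 : ∑ c ∈ ({(x, α x), (y, σ y)} : Finset (B × Fin 3)), z c.1 c.2 = 0 := by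
      rw [← h3]
      refine sum_subset ?_ ?_
      · intro c hc
        simp only [mem_insert, mem_singleton] at hc
        rcases hc with rfl | rfl
        · simp
        · simp [e]
      · rintro ⟨b, j⟩ hc hc'
        have h6 : T.p b j = T.p x (α x) := (mem_filter.1 hc).2
        refine hz b j ?_
        rintro ⟨-, rfl | rfl⟩
        · obtain rfl : b = x := hs.ha.inj h6
          exact hc' (by simp)
        · obtain rfl : b = y := hs.hs.inj (h6.trans e)
          exact hc' (by simp)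
    rw [sum_pair h4] at h5
    have h6 := h1 y hy
    show z x (α x) = z y (α y)
    have h7 : z x (α x) + z y (σ y) = 0 := h5
    linarith)
  obtain ⟨x, hx⟩ := hO.ne
  refine ⟨z x (α x), fun b j => ?_⟩
  show z b j = _
  by_cases hj : b ∈ O ∧ (j = α b ∨ j = σ b)
  · obtain ⟨hb, rfl | rfl⟩ := hj
    · simp [Z, hb, hne b hb, h2 x hx b hb]
    · have h3 := h1 b hb
      have h4 : z x (α x) = z b (α b) := h2 x hx b hb
      simp only [Z, hb, (hne b hb).symm, if_true, if_false]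
      linarith
  · rw [hz b j hj]
    by_cases hb : b ∈ O
    · have h1 : j ≠ α b := fun e => hj ⟨hb, Or.inl e⟩
      have h2 : j ≠ σ b := fun e => hj ⟨hb, Or.inr e⟩
      simp [Z, h1, h2]
    · simp [Z, hb]

theorem Loop.disc (h : T.Ok) (hs : T.State b0 c0 α σ) (hO : T.Loop b0 α σ O) (w0 : W) :
    ∃ (R : Finset W) (ε : ℝ), (ε = 1 ∨ ε = -1) ∧ R.Nonempty ∧ w0 ∉ R ∧
      ∀ b j, Z α σ O b j = ε * (ind R (T.m (j + 1) b) - ind R (T.m (j + 2) b)) := by
  classical
  obtain ⟨H, h0, hH⟩ := hO.exact h hs w0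
  let R : Finset W := univ.filter (fun w => H w ≠ 0)
  obtain ⟨l, hl⟩ := hO.mult h hs (ind R) (fun b j e => by
    rw [hH, sub_eq_zero] at e
    simp only [ind, R, mem_filter, mem_univ, e])
  have hw0 : w0 ∉ R := by simp [R, h0]
  have h1 : ∀ w, ind R w = l * H w := by
    intro w
    have := h.conn.eqW (fun w => ind R w - l * H w) (fun b j => by
      have := hl b j
      rw [hH] at this
      linarith) w w0
    simp only [ind, if_neg hw0, h0] at this ⊢
    linarith
  obtain ⟨x, hx⟩ := hO.ne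
  have h2 : Z α σ O x (α x) = 1 := by simp [Z, hx, hs.ne x fun e => hO.root (e ▸ hx)]
  have hR : R.Nonempty := by
    by_contra hcon
    have h3 : ∀ w, H w = 0 := fun w => by
      by_contra e
      exact hcon ⟨w, by simp [R, e]⟩
    rw [hH, h3, h3] at h2
    norm_num at h2
  have h3 : l = 1 ∨ l = -1 := by
    obtain ⟨w, hw⟩ := hR
    have h4 := h1 w
    have h5 := hl x (α x)
    rw [h2] at h5
    simp only [ind, if_pos hw] at h4 h5
    split_ifs at h5
    · have : l = 0 := by linarith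
      rw [this] at h4; norm_num at h4
    · left; linarith
    · right; linarith
    · have : l = 0 := by linarith
      rw [this] at h4; norm_num at h4
  refine ⟨R, l, h3, hR, hw0, fun b j => ?_⟩
  rw [hl]
  rcases h3 with rfl | rfl <;> ring

/-- each side of a loop is connected -/
theorem Loop.side_conn (h : T.Ok) (hs : T.State b0 c0 α σ) (hO : T.Loop b0 α σ O)
    (R : Finset W) (ε : ℝ) (hε : ε ≠ 0) (w0 : W) (hw0 : w0 ∉ R)
    (hZ : ∀ b j, Z α σ O b j = ε * (ind R (T.m (j + 1) b) - ind R (T.m (j + 2) b)))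
    (g : W → ℝ) (hg : ∀ b i k, T.m i b ∈ R → T.m k b ∈ R → g (T.m i b) = g (T.m k b)) :
    ∀ w ∈ R, ∀ w' ∈ R, g w = g w' := by
  obtain ⟨l, hl⟩ := hO.mult h hs (fun w => g w * ind R w) (fun b j e => by
    rw [hZ, mul_eq_zero, sub_eq_zero] at e
    have e := e.resolve_left hε
    by_cases h1 : T.m (j + 1) b ∈ R <;> by_cases h2 : T.m (j + 2) b ∈ R
    · rw [e, hg b _ _ h1 h2]
    · simp [ind, h1, h2] at e
    · simp [ind, h1, h2] at e
    · simp [ind, h1, h2])
  have h1 : ∀ w ∈ R, g w = l * ε := by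
    intro w hw
    have := h.conn.eqW (fun w => g w * ind R w - l * ε * ind R w) (fun b j => by
      have := hl b j
      rw [hZ] at this
      linarith) w w0
    simp only [ind, if_neg hw0, if_pos hw] at this
    linarith
  intro w hw w' hw'
  rw [h1 w hw, h1 w' hw']

/-- the Euler inequality for a connected set of whites -/
theorem side_ineq (h : T.Ok) (R : Finset W) (hR : R.Nonempty)
    (hc : ∀ g : W → ℝ, (∀ b i k, T.m i b ∈ R → T.m k b ∈ R → g (T.m i b) = g (T.m k b)) →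
      ∀ w ∈ R, ∀ w' ∈ R, g w = g w')
    (X : Finset V) (hX : ∀ b i j, i ≠ j → T.p b j ∈ X → T.m i b ∈ R) (hne : X ≠ univ) :
    X.card + Fintype.card B ≤ 2 * R.card + (univ.filter (fun b => ∀ i, T.m i b ∉ R)).card + 1 := by
  obtain ⟨w1, hw1⟩ := hR
  have h1 := euler_ineq h.conn h.inv h.surj (univ.filter (fun e : B × Fin 3 => T.m e.2 e.1 ∈ R))
    X (univ.filter (fun b => ∀ i, T.m i b ∉ R)) (insert w1 Rᶜ)
    (fun b i j hij hp => mem_filter.2 ⟨mem_univ _, hX b i j hij hp⟩) hne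
    (by
      intro f g h1 h2 h3
      have h4 : ∀ b i, T.m i b ∈ R → f b = g (T.m i b) :=
        fun b i e => h1 b i (mem_filter.2 ⟨mem_univ _, e⟩)
      have h5 : ∀ w, g w = 0 := by
        intro w
        by_cases hw : w ∈ R
        · rw [hc g (fun b i k e e' => (h4 b i e).symm.trans (h4 b k e')) w hw w1 hw1]
          exact h3 w1 (mem_insert_self _ _)
        · exact h3 w (mem_insert_of_mem (mem_compl.2 hw))
      refine ⟨fun b => ?_, h5⟩
      by_cases hb : ∀ i, T.m i b ∉ R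
      · exact h2 b (mem_filter.2 ⟨mem_univ _, hb⟩)
      · push Not at hb
        obtain ⟨i, hi⟩ := hb
        rw [h4 b i hi, h5])
  rw [card_white_edges] at h1
  have h2 := card_insert_le w1 Rᶜ
  rw [card_compl, card_W T] at h2
  have h3 := card_le_univ R
  rw [card_W T] at h3
  omega

theorem ind_compl (R : Finset W) (w : W) : ind Rᶜ w = 1 - ind R w := by
  by_cases h : w ∈ R <;> simp [ind, h]

/-- the turning number of a loop -/
theorem Loop.turn (h : T.Ok) (hs : T.State b0 c0 α σ) (hO : T.Loop b0 α σ O)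
    (R : Finset W) (ε : ℝ) (hε : ε = 1 ∨ ε = -1) (hR : R.Nonempty) (hw0 : T.m c0 b0 ∉ R)
    (hZ : ∀ b j, Z α σ O b j = ε * (ind R (T.m (j + 1) b) - ind R (T.m (j + 2) b))) :
    ∑ b ∈ O, dsg (α b) (σ b) = -3 * ε := by
  have hε0 : ε ≠ 0 := by rcases hε with rfl | rfl <;> norm_num
  have hne : ∀ b ∈ O, α b ≠ σ b := fun b hb => hs.ne b fun e => hO.root (e ▸ hb)
  have hz : ∀ b j, Z α σ O b j = 0 → (T.m (j + 1) b ∈ R ↔ T.m (j + 2) b ∈ R) := by
    intro b j e
    rw [hZ, mul_eq_zero, sub_eq_zero] at e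
    have e := e.resolve_left hε0
    by_cases h1 : T.m (j + 1) b ∈ R <;> by_cases h2 : T.m (j + 2) b ∈ R <;>
      simp [ind, h1, h2] at e ⊢
  have hout : ∀ b, b ∉ O → ∀ i k, T.m i b ∈ R ↔ T.m k b ∈ R := by
    intro b hb i k
    have e0 : T.m 1 b ∈ R ↔ T.m 2 b ∈ R := hz b 0 (by simp [Z, hb])
    have e1 : T.m 2 b ∈ R ↔ T.m 0 b ∈ R := hz b 1 (by simp [Z, hb])
    fin_cases i <;> fin_cases k <;> simp only [Fin.zero_eta, Fin.mk_one, Fin.reduceFinMk] <;> tauto
  have hin : ∀ b ∈ O, ¬ (T.m (α b + 1) b ∈ R ↔ T.m (α b + 2) b ∈ R) := by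
    intro b hb e
    have h1 := hZ b (α b)
    simp [Z, hb, hne b hb, ind, e] at h1
  have hoff : ∀ v, (∀ x ∈ O, T.p x (α x) ≠ v) → (∀ x ∈ O, T.p x (σ x) ≠ v) →
      ∀ b j, T.p b j = v → (T.m (j + 1) b ∈ R ↔ T.m (j + 2) b ∈ R) := by
    intro v h1 h2 b j e
    refine hz b j ?_
    by_cases hb : b ∈ O
    · have h3 : j ≠ α b := fun e' => h1 b hb (e' ▸ e)
      have h4 : j ≠ σ b := fun e' => h2 b hb (e' ▸ e)
      simp [Z, h3, h4]
    · simp [Z, hb]
  have hoffα : ∀ x, x ∉ O →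
      ∀ b j, T.p b j = T.p x (α x) → (T.m (j + 1) b ∈ R ↔ T.m (j + 2) b ∈ R) :=
    fun x hx => hoff _ (fun y hy e => hx (hs.ha.inj e ▸ hy))
      (fun y hy e => hx ((hO.inv x y e.symm).2 hy))
  have hoff0 : ∀ k, k ≠ c0 →
      ∀ b j, T.p b j = T.p b0 k → (T.m (j + 1) b ∈ R ↔ T.m (j + 2) b ∈ R) :=
    fun k hk => hoff _ (fun y _ => hs.ha.ne y k hk) (fun y _ => hs.hs.ne y k hk)
  let B3 : Finset B := univ.filter (fun b => ∀ i, T.m i b ∈ R)
  let B0 : Finset B := univ.filter (fun b => ∀ i, T.m i b ∉ R)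
  have hB3 : ∀ b ∈ B3, b ∉ O := fun b hb e =>
    hin b e (iff_of_true ((mem_filter.1 hb).2 _) ((mem_filter.1 hb).2 _))
  have hB0 : ∀ b ∈ B0, b ∉ O := fun b hb e =>
    hin b e (iff_of_false ((mem_filter.1 hb).2 _) ((mem_filter.1 hb).2 _))
  have hb0 : ∀ i, T.m i b0 ∉ R := fun i e => hw0 ((hout b0 hO.root i c0).1 e)
  have i1 := side_ineq h R hR (hO.side_conn h hs R ε hε0 _ hw0 hZ)
    (B3.image (fun b => T.p b (α b)))
    (by
      intro b i j hij hp
      obtain ⟨x, hx, e⟩ := mem_image.1 hp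
      obtain rfl := h.col _ _ _ _ e
      exact h.face_conn (fun w => w ∈ R) _ (α x) (fun y hy => hoffα x (hB3 x hx) y _ hy) x b rfl
        e.symm _ i (f3_ne1 _) hij ((mem_filter.1 hx).2 _))
    (by
      intro e
      obtain ⟨x, -, hx⟩ := mem_image.1 (eq_univ_iff_forall.1 e (T.p b0 (c0 + 1)))
      exact hs.ha.ne x _ (f3_ne1 _) hx)
  obtain ⟨w1, hw1⟩ := hR
  have i2 := side_ineq h Rᶜ ⟨_, mem_compl.2 hw0⟩
    (hO.side_conn h hs Rᶜ (-ε) (neg_ne_zero.2 hε0) w1 (by simpa using hw1)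
      (fun b j => by rw [hZ, ind_compl, ind_compl]; ring))
    (insert (T.p b0 (c0 + 1)) (insert (T.p b0 (c0 + 2)) (B0.image (fun b => T.p b (α b)))))
    (by
      intro b i j hij hp
      rw [mem_compl]
      have h0 : ∀ k, k ≠ c0 → T.p b j = T.p b0 k → T.m i b ∉ R := by
        intro k hk e
        obtain rfl := h.col _ _ _ _ e
        exact h.face_conn (fun w => w ∉ R) _ j (fun y hy => not_congr (hoff0 j hk y _ hy)) b0 b rfl
          e _ i (f3_ne1 _) hij (hb0 _)
      rcases mem_insert.1 hp with e | hp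
      · exact h0 _ (f3_ne1 _) e
      rcases mem_insert.1 hp with e | hp
      · exact h0 _ (f3_ne2 _) e
      obtain ⟨x, hx, e⟩ := mem_image.1 hp
      obtain rfl := h.col _ _ _ _ e
      exact h.face_conn (fun w => w ∉ R) _ (α x)
        (fun y hy => not_congr (hoffα x (hB0 x hx) y _ hy)) x b rfl
        e.symm _ i (f3_ne1 _) hij ((mem_filter.1 hx).2 _))
    (by
      intro e
      obtain ⟨y, hy⟩ := hO.ne
      have hp := eq_univ_iff_forall.1 e (T.p y (α y))
      rcases mem_insert.1 hp with e | hp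
      · exact hs.ha.ne y _ (f3_ne1 _) e
      rcases mem_insert.1 hp with e | hp
      · exact hs.ha.ne y _ (f3_ne2 _) e
      obtain ⟨x, hx, e⟩ := mem_image.1 hp
      exact hB0 x hx (hs.ha.inj e ▸ hy))
  rw [card_image_of_injective _ hs.ha.inj] at i1
  rw [card_insert_of_notMem, card_insert_of_notMem, card_image_of_injective _ hs.ha.inj,
    card_compl, card_W T] at i2
  rotate_left
  · intro hp
    obtain ⟨x, -, e⟩ := mem_image.1 hp
    exact hs.ha.ne x _ (f3_ne2 _) e
  · intro hp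
    rcases mem_insert.1 hp with e | hp
    · exact f3_ne12 _ (h.col _ _ _ _ e)
    obtain ⟨x, -, e⟩ := mem_image.1 hp
    exact hs.ha.ne x _ (f3_ne1 _) e
  simp only [mem_compl, not_not] at i2
  have hRc := card_le_univ R
  rw [card_W T] at hRc
  have hpart : Fintype.card B = O.card + B3.card + B0.card := by
    rw [← card_union_of_disjoint (disjoint_right.2 hB3), ← card_union_of_disjoint, ← card_univ]
    · congr 1
      ext b
      simp only [mem_univ, mem_union, true_iff, B3, B0, mem_filter, true_and]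
      by_cases hb : b ∈ O
      · exact Or.inl (Or.inl hb)
      by_cases h0 : T.m 0 b ∈ R
      · exact Or.inl (Or.inr fun i => (hout b hb 0 i).1 h0)
      · exact Or.inr fun i e => h0 ((hout b hb 0 i).2 e)
    · refine disjoint_union_left.2 ⟨disjoint_right.2 hB0, disjoint_left.2 fun b e e' => ?_⟩
      exact (mem_filter.1 e').2 0 ((mem_filter.1 e).2 0)
  have heq : 2 * B3.card + O.card = 2 * R.card + 1 := by
    have j1 : B3.card + Fintype.card B ≤ 2 * R.card + B0.card + 1 := i1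
    have j2 : B0.card + 1 + 1 + Fintype.card B ≤
      2 * (Fintype.card B - R.card) + B3.card + 1 := i2
    omega
  have hsum : ∑ b, ∑ i, ind R (T.m i b) = 3 * R.card := by
    rw [sum_comm]
    have : ∀ i, ∑ b, ind R (T.m i b) = R.card := fun i => by
      rw [Equiv.sum_comp (T.m i) (ind R)]
      simp [ind]
    simp [this]
  have hper : ∀ b, 2 * ∑ i, ind R (T.m i b) =
      (if b ∈ B3 then 6 else 0) + if b ∈ O then 3 + ε * dsg (α b) (σ b) else 0 := by
    intro b
    by_cases hb : b ∈ O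
    · rw [if_neg fun e => hB3 b e hb, if_pos hb, ← Equiv.sum_comp (Equiv.addLeft (α b)),
        Fin.sum_univ_three]
      simp only [Equiv.coe_addLeft, add_zero]
      have e0 := hZ b (α b)
      have e1 := hZ b (α b + 1)
      rw [f3_11, f3_12] at e1
      rcases f3_cases _ _ (hne b hb).symm with e | e
      · simp only [Z, hb, e, if_true, f3_ne1, (f3_ne1 _).symm, if_false, dsg, ind] at e0 e1 ⊢
        rcases hε with rfl | rfl <;> split_ifs at e0 e1 ⊢ <;> linarith
      · simp only [Z, hb, e, if_true, f3_ne1, (f3_ne2 _).symm, f3_ne12, (f3_ne12 _).symm,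
          if_false, dsg, ind] at e0 e1 ⊢
        rcases hε with rfl | rfl <;> split_ifs at e0 e1 ⊢ <;> linarith
    · rw [if_neg hb]
      by_cases h0 : T.m 0 b ∈ R
      · have h1 : ∀ i, T.m i b ∈ R := fun i => (hout b hb 0 i).1 h0
        simp [B3, h1, ind]
        norm_num
      · have h1 : ∀ i, T.m i b ∉ R := fun i e => h0 ((hout b hb 0 i).2 e)
        simp [B3, h1, ind]
  have h6 : 2 * ∑ b, ∑ i, ind R (T.m i b) =
      6 * B3.card + (3 * O.card + ε * ∑ b ∈ O, dsg (α b) (σ b)) := by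
    rw [mul_sum, sum_congr rfl fun b _ => hper b, sum_add_distrib, sum_ite_mem, sum_ite_mem,
      univ_inter, univ_inter, sum_add_distrib, ← mul_sum]
    simp [mul_comm]
  have h7 : (2 * B3.card + O.card : ℝ) = 2 * R.card + 1 := by exact_mod_cast heq
  rw [hsum] at h6
  rcases hε with rfl | rfl <;> linarith

/-- a corner function with unit flux through the whites -/
theorem exists_flux (hc : T.Conn) (w0 : W) : ∃ φ : B × Fin 3 → ℝ, ∀ H : W → ℝ, H w0 = 0 →
    ∑ c, φ c * (H (T.m (c.2 + 1) c.1) - H (T.m (c.2 + 2) c.1)) = ∑ w, H w := by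
  let D : (W → ℝ) →ₗ[ℝ] ((B × Fin 3 → ℝ) × ℝ) :=
    { toFun := fun H => (fun c => H (T.m (c.2 + 1) c.1) - H (T.m (c.2 + 2) c.1), H w0)
      map_add' := fun H H' => by ext <;> simp; ring
      map_smul' := fun r H => by ext <;> simp; ring }
  obtain ⟨L, hL⟩ := D.exists_leftInverse_of_injective (by
    rw [LinearMap.ker_eq_bot']
    intro H hH
    have h1 : ∀ b j, H (T.m (j + 1) b) = H (T.m (j + 2) b) := fun b j =>
      sub_eq_zero.1 (congrFun (congrArg Prod.fst hH) (b, j))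
    have h2 : H w0 = 0 := congrArg Prod.snd hH
    funext w
    rw [hc.eqW H h1 w w0, h2]
    rfl)
  let Λ : (B × Fin 3 → ℝ) →ₗ[ℝ] ℝ :=
    (∑ w, LinearMap.proj w : (W → ℝ) →ₗ[ℝ] ℝ) ∘ₗ L ∘ₗ LinearMap.inl ℝ _ _
  refine ⟨fun c => Λ (fun c' => if c = c' then 1 else 0), fun H hH => ?_⟩
  have h1 := LinearMap.pi_apply_eq_sum_univ Λ
    (fun c => H (T.m (c.2 + 1) c.1) - H (T.m (c.2 + 2) c.1))
  have h2 : L (fun c => H (T.m (c.2 + 1) c.1) - H (T.m (c.2 + 2) c.1), 0) = H := by
    rw [← hH]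
    exact LinearMap.congr_fun hL H
  simp only [smul_eq_mul] at h1
  rw [sum_congr rfl fun c _ => mul_comm _ _, ← h1]
  simp [Λ, h2]

theorem Loop.main (h : T.Ok) (hs : T.State b0 c0 α σ) (hO : T.Loop b0 α σ O)
    (φ : B × Fin 3 → ℝ) (hφ : ∀ H : W → ℝ, H (T.m c0 b0) = 0 →
      ∑ c, φ c * (H (T.m (c.2 + 1) c.1) - H (T.m (c.2 + 2) c.1)) = ∑ w, H w) :
    ∃ (r ε : ℝ), (ε = 1 ∨ ε = -1) ∧ 0 < r ∧ r ≤ Fintype.card B ∧
      ∑ b ∈ O, dsg (α b) (σ b) = -3 * ε ∧ ∑ b ∈ O, (φ (b, α b) - φ (b, σ b)) = ε * r := by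
  obtain ⟨R, ε, h1, h2, h3, h4⟩ := hO.disc h hs (T.m c0 b0)
  refine ⟨R.card, ε, h1, by exact_mod_cast h2.card_pos, ?_, hO.turn h hs R ε h1 h2 h3 h4, ?_⟩
  · have := card_le_univ R
    rw [card_W T] at this
    exact_mod_cast this
  · rw [← sum_mul_Z, sum_congr rfl fun c _ => by rw [h4, mul_left_comm], ← mul_sum,
      hφ (ind R) (by simp [ind, h3])]
    simp [ind]

end Tri

end Crest.Agent.R39
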