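import Crest.Agent.R39.Loop

/-! The positive exponential sum over pairs of Tutte matchings. -/

set_option autoImplicit false
set_option linter.unusedSectionVars false

namespace Crest.Agent.R39

open Finset Complex

theorem f3_sum : ∀ a b a' b' : Fin 3, a ≠ b → a' ≠ b' → a' + b' = a + b →
    (a' = a ∧ b' = b) ∨ (a' = b ∧ b' = a) := by decide

theorem loop_factor (a r ε s : ℝ) (hε : ε = 1 ∨ ε = -1) :
    exp (((a + (3 * Real.pi / 2 * ε + s * ε * r / 2) : ℝ) : ℂ) * I) +
      exp (((a - (3 * Real.pi / 2 * ε + s * ε * r / 2) : ℝ) : ℂ) * I) =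
      ((2 * Real.sin (s * r / 2) : ℝ) : ℂ) * exp ((a : ℂ) * I) := by
  have h1 : Real.cos (3 * Real.pi / 2 * ε + s * ε * r / 2) = Real.sin (s * r / 2) := by
    have h2 : Real.cos (3 * Real.pi / 2 + s * r / 2) = Real.sin (s * r / 2) := by
      rw [show 3 * Real.pi / 2 + s * r / 2 = (s * r / 2 + Real.pi / 2) + Real.pi by ring,
        Real.cos_add_pi, Real.cos_add_pi_div_two, neg_neg]
    rcases hε with rfl | rfl
    · rw [← h2]; congr 1; ring
    · rw [← h2, ← Real.cos_neg]; congr 1; ring
  rw [← h1]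
  generalize (3 * Real.pi / 2 * ε + s * ε * r / 2) = y
  push_cast
  rw [two_cos, add_mul (exp _), ← exp_add, ← exp_add]
  congr 2 <;> ring

namespace Tri

variable {B W V : Type} {T : Tri B W V}
variable [Fintype B] [Fintype W] [Fintype V] [DecidableEq B] [DecidableEq W] [DecidableEq V]
variable {b0 : B} {c0 : Fin 3} {α σ : B → Fin 3}

theorem TM.swap (hα : T.TM b0 c0 α) (hσ : T.TM b0 c0 σ) (U : B → Prop) [DecidablePred U]
    (hU : ∀ x y, T.p x (α x) = T.p y (σ y) → (U x ↔ U y)) :
    T.TM b0 c0 (fun b => if U b then σ b else α b) := by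
  refine ⟨fun x y e => ?_, by simp [hα.root, hσ.root], fun b j hj => ?_⟩
  · by_cases hx : U x <;> by_cases hy : U y <;> simp only [hx, hy, if_true, if_false] at e
    · exact hσ.inj e
    · exact absurd ((hU y x e.symm).2 hx) hy
    · exact absurd ((hU x y e).2 hy) hx
    · exact hα.inj e
  · split_ifs
    · exact hσ.ne b j hj
    · exact hα.ne b j hj

open Classical in
/-- the set of states -/
noncomputable def states (T : Tri B W V) (b0 : B) (c0 : Fin 3) :
    Finset ((B → Fin 3) × (B → Fin 3)) := univ.filter (fun x => T.State b0 c0 x.1 x.2)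

theorem mem_states {x : (B → Fin 3) × (B → Fin 3)} :
    x ∈ T.states b0 c0 ↔ T.State b0 c0 x.1 x.2 := by simp [states]

theorem fibre (hs : T.State b0 c0 α σ) : ∃ Q : Finset (Finset B),
    (∀ O ∈ Q, T.Loop b0 α σ O) ∧
    (∀ g : B → ℝ, ∑ O ∈ Q, ∑ b ∈ O, g b = ∑ b ∈ univ.erase b0, g b) ∧
    ∀ F : B → Fin 3 → Fin 3 → ℂ,
      ∑ x ∈ T.states b0 c0 with x.1 + x.2 = α + σ, ∏ b ∈ univ.erase b0, F b (x.1 b) (x.2 b) =
        ∏ O ∈ Q, (∏ b ∈ O, F b (σ b) (α b) + ∏ b ∈ O, F b (α b) (σ b)) := by
  classical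
  let Iv : (B → Prop) → Prop := fun f => ∀ x y, T.p x (α x) = T.p y (σ y) → (f x ↔ f y)
  let orb : B → Finset B := fun b => univ.filter (fun b' => ∀ f, Iv f → (f b ↔ f b'))
  have horb : ∀ b b', b' ∈ orb b ↔ ∀ f, Iv f → (f b ↔ f b') := fun b b' => by simp [orb]
  have hself : ∀ b, b ∈ orb b := fun b => (horb b b).2 fun _ _ => Iff.rfl
  have heq : ∀ b b', b' ∈ orb b → orb b' = orb b := by
    intro b b' hb
    ext x
    rw [horb, horb]
    exact forall_congr' fun f => forall_congr' fun hf => by rw [(horb b b').1 hb f hf]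
  have hstep : ∀ x y, T.p x (α x) = T.p y (σ y) → orb x = orb y := fun x y e =>
    (heq x y ((horb x y).2 fun f hf => hf x y e)).symm
  have h0 : ∀ b, b ≠ b0 → b0 ∉ orb b := by
    intro b hb e
    refine hb (((horb b b0).1 e (fun x => x = b0) fun x y e' => ?_).2 rfl)
    constructor
    · rintro rfl
      exact hs.hs.inj (show T.p y (σ y) = T.p x (σ x) by rw [← e', hs.ha.root, hs.hs.root])
    · rintro rfl
      exact hs.ha.inj (show T.p x (α x) = T.p y (α y) by rw [e', hs.ha.root, hs.hs.root])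
  let Q : Finset (Finset B) := (univ.erase b0).image orb
  have hQ : ∀ b ∈ univ.erase b0, orb b ∈ Q := fun b hb => mem_image_of_mem _ hb
  have hfib : ∀ O ∈ Q, (univ.erase b0).filter (fun b => orb b = O) = O := by
    intro O hO
    obtain ⟨b, hb, rfl⟩ := mem_image.1 hO
    ext x
    simp only [mem_filter, mem_erase, mem_univ, and_true]
    exact ⟨fun e => e.2 ▸ hself x,
      fun e => ⟨fun e' => h0 b (mem_erase.1 hb).1 (e' ▸ e), heq b x e⟩⟩
  refine ⟨Q, fun O hO => ?_, fun g => ?_, fun F => ?_⟩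
  · obtain ⟨b, hb, rfl⟩ := mem_image.1 hO
    have hi : ∀ x y, T.p x (α x) = T.p y (σ y) → (x ∈ orb b ↔ y ∈ orb b) := fun x y e =>
      ⟨fun hx => by rw [← heq b x hx, hstep x y e]; exact hself y,
        fun hy => by rw [← heq b y hy, ← hstep x y e]; exact hself x⟩
    refine ⟨⟨b, hself b⟩, h0 b (mem_erase.1 hb).1, hi, fun f hf x hx y hy => ?_⟩
    have h1 : ∀ z ∈ orb b, f z = f b := fun z hz =>
      (((horb b z).1 hz (fun u => u ∈ orb b ∧ f u = f b) fun u u' e =>
        ⟨fun hu => ⟨(hi u u' e).1 hu.1, by rw [← hf u hu.1 u' ((hi u u' e).1 hu.1) e, hu.2]⟩,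
          fun hu => ⟨(hi u u' e).2 hu.1, by rw [hf u ((hi u u' e).2 hu.1) u' hu.1 e, hu.2]⟩⟩).1
        ⟨hself b, rfl⟩).2
    rw [h1 x hx, h1 y hy]
  · rw [← sum_fiberwise_of_maps_to hQ]
    exact sum_congr rfl fun O hO => by rw [hfib O hO]
  · rw [prod_add]
    symm
    refine sum_bij (fun S _ => ((fun b => if orb b ∈ S then σ b else α b),
      (fun b => if orb b ∈ S then α b else σ b))) ?_ ?_ ?_ ?_
    · intro S _
      refine mem_filter.2 ⟨mem_states.2 ⟨?_, ?_, fun b hb => ?_⟩, ?_⟩
      · exact hs.ha.swap hs.hs (fun b => orb b ∈ S) fun x y e => by rw [hstep x y e]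
      · exact hs.hs.swap hs.ha (fun b => orb b ∈ S) fun x y e => by rw [hstep y x e.symm]
      · dsimp only
        split_ifs
        · exact (hs.ne b hb).symm
        · exact hs.ne b hb
      · funext b
        simp only [Pi.add_apply]
        split_ifs
        · exact add_comm _ _
        · rfl
    · intro S hS S' hS' e
      have e1 : ∀ b, b ≠ b0 → (orb b ∈ S ↔ orb b ∈ S') := by
        intro b hb
        have e2 : (if orb b ∈ S then σ b else α b) = if orb b ∈ S' then σ b else α b :=
          congrFun (congrArg Prod.fst e) b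
        have := hs.ne b hb
        by_cases a1 : orb b ∈ S <;> by_cases a2 : orb b ∈ S' <;> simp_all
      ext O
      constructor
      · intro hO
        obtain ⟨b, hb, rfl⟩ := mem_image.1 (mem_powerset.1 hS hO)
        exact (e1 b (mem_erase.1 hb).1).1 hO
      · intro hO
        obtain ⟨b, hb, rfl⟩ := mem_image.1 (mem_powerset.1 hS' hO)
        exact (e1 b (mem_erase.1 hb).1).2 hO
    · rintro ⟨α', σ'⟩ hx
      have hs' : T.State b0 c0 α' σ' := mem_states.1 (mem_filter.1 hx).1
      have hsum : ∀ b, α' b + σ' b = α b + σ b := congrFun (mem_filter.1 hx).2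
      have c1 : ∀ b, α' b = α b → σ' b = σ b := fun b e => by
        have := hsum b
        rw [e] at this
        exact add_left_cancel this
      have c2 : ∀ b, α' b ≠ α b → b ≠ b0 ∧ α' b = σ b ∧ σ' b = α b := fun b e => by
        have hb : b ≠ b0 := fun e' => e (by rw [e', hs.ha.root, hs'.ha.root])
        exact ⟨hb, (f3_sum _ _ _ _ (hs.ne b hb) (hs'.ne b hb) (hsum b)).resolve_left
          fun e' => e e'.1⟩
      have hU : Iv (fun b => α' b ≠ α b) := by
        intro x y e
        constructor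
        · intro hx hy
          obtain rfl : x = y := hs'.hs.inj
            (show T.p x (σ' x) = T.p y (σ' y) by rw [(c2 x hx).2.2, c1 y hy, e])
          exact hx hy
        · intro hy hx
          obtain rfl : x = y := hs'.ha.inj
            (show T.p x (α' x) = T.p y (α' y) by rw [(c2 y hy).2.1, hx, e])
          exact hy hx
      have c3 : ∀ b, orb b ∈ Q.filter (fun O => ∃ x ∈ O, α' x ≠ α x) ↔ α' b ≠ α b := fun b =>
        ⟨fun e => by
          obtain ⟨x, hx1, hx2⟩ := (mem_filter.1 e).2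
          exact ((horb b x).1 hx1 _ hU).2 hx2,
        fun e => mem_filter.2 ⟨hQ b (mem_erase.2 ⟨(c2 b e).1, mem_univ _⟩), b, hself b, e⟩⟩
      refine ⟨Q.filter (fun O => ∃ x ∈ O, α' x ≠ α x), mem_powerset.2 (filter_subset _ _), ?_⟩
      refine Prod.ext (funext fun b => ?_) (funext fun b => ?_)
      · simp only [c3]
        split_ifs with e
        · exact (c2 b e).2.1.symm
        · exact (not_not.1 e).symm
      · simp only [c3]
        split_ifs with e
        · exact (c2 b e).2.2.symm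
        · exact (c1 b (not_not.1 e)).symm
    · intro S hS
      have hS' := mem_powerset.1 hS
      rw [← prod_fiberwise_of_maps_to hQ, ← prod_sdiff hS', mul_comm]
      congr 1
      · refine prod_congr rfl fun O hO => ?_
        conv_lhs => rw [← hfib O (mem_sdiff.1 hO).1]
        refine prod_congr rfl fun b hb => ?_
        simp only [(mem_filter.1 hb).2, if_neg (mem_sdiff.1 hO).2]
      · refine prod_congr rfl fun O hO => ?_
        conv_lhs => rw [← hfib O (hS' hO)]
        refine prod_congr rfl fun b hb => ?_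
        simp only [(mem_filter.1 hb).2, if_pos hO]

theorem fibre_pos (h : T.Ok) (hs : T.State b0 c0 α σ)
    (φ : B × Fin 3 → ℝ) (hφ : ∀ H : W → ℝ, H (T.m c0 b0) = 0 →
      ∑ c, φ c * (H (T.m (c.2 + 1) c.1) - H (T.m (c.2 + 2) c.1)) = ∑ w, H w)
    (s : ℝ) (h1 : 0 < s) (h2 : s * Fintype.card B ≤ 1) (h3 : s * ∑ c, |φ c| ≤ 1) :
    0 < (∑ x ∈ T.states b0 c0 with x.1 + x.2 = α + σ, ∏ b ∈ univ.erase b0,
      exp (((Real.pi / 2 * dsg (x.1 b) (x.2 b) - s * φ (b, x.1 b) : ℝ) : ℂ) * I)).re := by
  obtain ⟨Q, q1, q2, q3⟩ := fibre hs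
  rw [q3 (fun b j k => exp (((Real.pi / 2 * dsg j k - s * φ (b, j) : ℝ) : ℂ) * I))]
  have key : ∀ O ∈ Q, ∃ ρ : ℝ, 0 < ρ ∧
      ∏ b ∈ O, exp (((Real.pi / 2 * dsg (σ b) (α b) - s * φ (b, σ b) : ℝ) : ℂ) * I) +
      ∏ b ∈ O, exp (((Real.pi / 2 * dsg (α b) (σ b) - s * φ (b, α b) : ℝ) : ℂ) * I) =
      (ρ : ℂ) * exp (((∑ b ∈ O, -s * (φ (b, α b) + φ (b, σ b)) / 2 : ℝ) : ℂ) * I) := by
    intro O hO
    have hL := q1 O hO
    obtain ⟨r, ε, e1, e2, e3, e4, e5⟩ := hL.main h hs φ hφ
    have e6 : ∑ b ∈ O, dsg (σ b) (α b) = 3 * ε := by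
      rw [← neg_neg (3 * ε), ← neg_mul, ← e4, ← sum_neg_distrib]
      refine sum_congr rfl fun b hb => ?_
      have := hs.ne b fun e => hL.root (e ▸ hb)
      revert this
      generalize α b = j
      generalize σ b = k
      intro hjk
      rcases f3_cases _ _ hjk with rfl | rfl
      · simp [dsg, f3_11, (f3_ne2 k).symm]
      · simp [dsg, f3_21, (f3_ne12 k).symm]
    refine ⟨2 * Real.sin (s * r / 2), ?_, ?_⟩
    · have : 0 < Real.sin (s * r / 2) := Real.sin_pos_of_pos_of_lt_pi (by positivity) (by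
        have := Real.pi_gt_three
        have := mul_le_mul_of_nonneg_left e3 h1.le
        linarith)
      linarith
    · rw [← loop_factor _ r ε s e1, ← exp_sum, ← exp_sum, ← sum_mul, ← sum_mul, ← ofReal_sum,
        ← ofReal_sum]
      rw [sum_sub_distrib] at e5
      simp only [sum_sub_distrib, ← mul_sum, ← sum_div, sum_add_distrib, e4, e6]
      congr 4
      · linear_combination (s / 2) * e5
      · linear_combination (-s / 2) * e5
  choose! ρ hρ1 hρ2 using key
  rw [prod_congr rfl hρ2, prod_mul_distrib, ← exp_sum, ← sum_mul, ← ofReal_sum, ← ofReal_prod,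
    re_ofReal_mul, exp_ofReal_mul_I_re, q2]
  refine mul_pos (prod_pos hρ1) (Real.cos_pos_of_mem_Ioo (abs_lt.1 ?_))
  have e1 : |∑ b ∈ univ.erase b0, -s * (φ (b, α b) + φ (b, σ b)) / 2| ≤ s * ∑ c, |φ c| := by
    refine (abs_sum_le_sum_abs _ _).trans ?_
    rw [Fintype.sum_prod_type, mul_sum]
    refine le_trans (sum_le_sum fun b _ => ?_) (sum_le_univ_sum_of_nonneg fun b => by positivity)
    have a1 := single_le_sum (f := fun j => |φ (b, j)|) (fun _ _ => abs_nonneg _) (mem_univ (α b))
    have a2 := single_le_sum (f := fun j => |φ (b, j)|) (fun _ _ => abs_nonneg _) (mem_univ (σ b))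
    have a3 := abs_add_le (φ (b, α b)) (φ (b, σ b))
    rw [abs_div, abs_mul, abs_neg, abs_of_pos h1, abs_two, mul_div_assoc]
    exact mul_le_mul_of_nonneg_left (by linarith) h1.le
  have := Real.pi_gt_three
  linarith

theorem tsum_eq (h : T.Ok) (t0 : V → Bool) (hσ : σ b0 = c0) [Decidable (T.TM b0 c0 σ)] :
    ∑ t : V → Bool, (∏ v, (if v ∈ univ.image (T.p b0) then (if t v = t0 v then 1 else 0) else
      (if t v then 1 else -1) : ℝ)) * ∏ b ∈ univ.erase b0, (if t (T.p b (σ b)) then 1 else 0) =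
      if T.TM b0 c0 σ then 1 else 0 := by
  let J : Finset V := (univ.erase b0).image (fun b => T.p b (σ b))
  have h1 : ∀ t : V → Bool, ∏ b ∈ univ.erase b0, (if t (T.p b (σ b)) then 1 else 0 : ℝ) =
      ∏ v, if v ∈ J then (if t v then 1 else 0) else 1 := by
    intro t
    rw [prod_ite_mem, univ_inter, prod_ite_zero, prod_ite_zero]
    simp only [prod_const_one, J, forall_mem_image]
  simp only [h1, ← prod_mul_distrib]
  rw [← Fintype.prod_sum (fun v (y : Bool) => (if v ∈ univ.image (T.p b0) then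
    (if y = t0 v then 1 else 0) else (if y then 1 else -1) : ℝ) *
      if v ∈ J then (if y then 1 else 0) else 1)]
  split_ifs with hT
  · refine prod_eq_one fun v _ => ?_
    by_cases hv : v ∈ univ.image (T.p b0)
    · have : v ∉ J := by
        intro e
        obtain ⟨j, -, rfl⟩ := mem_image.1 hv
        obtain ⟨b, hb, e⟩ := mem_image.1 e
        by_cases hj : j = c0
        · exact (mem_erase.1 hb).1 (hT.inj (show T.p b (σ b) = T.p b0 (σ b0) by rw [e, hj, hσ]))
        · exact hT.ne b j hj e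
      cases ht : t0 v <;> simp [hv, this]
    · have : v ∈ J := by
        obtain ⟨b, hb⟩ := hT.surj h v fun j _ e => hv (e ▸ mem_image_of_mem _ (mem_univ j))
        refine mem_image.2 ⟨b, mem_erase.2 ⟨fun e => hv ?_, mem_univ _⟩, hb⟩
        rw [← hb, e]
        exact mem_image_of_mem _ (mem_univ _)
      simp [hv, this]
  · obtain ⟨v, hv1, hv2⟩ : ∃ v, v ∉ univ.image (T.p b0) ∧ v ∉ J := by
      by_contra hcon
      push Not at hcon
      have c1 : (univ.image (T.p b0)).card = 3 := by
        rw [card_image_of_injective _ (fun j k e => h.col _ _ _ _ e)]; simp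
      have c2 : (univ.image (T.p b0))ᶜ ⊆ J := fun v hv => hcon v (mem_compl.1 hv)
      have c3 : J.card ≤ (univ.erase b0).card := card_image_le
      have c4 : (univ.erase b0).card = ((univ.image (T.p b0))ᶜ).card := by
        rw [card_erase_of_mem (mem_univ _), card_compl, c1, h.euler, card_univ]
        omega
      have c5 : (univ.image (T.p b0))ᶜ = J := eq_of_subset_of_card_le c2 (c4 ▸ c3)
      have c6 : Set.InjOn (fun b => T.p b (σ b)) (univ.erase b0 : Finset B) :=
        card_image_iff.1 (by rw [c4, c5])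
      have c7 : ∀ b j, b ≠ b0 → T.p b (σ b) ≠ T.p b0 j := by
        intro b j hb e
        have : T.p b (σ b) ∈ J := mem_image_of_mem _ (mem_erase.2 ⟨hb, mem_univ _⟩)
        rw [← c5, e] at this
        exact mem_compl.1 this (mem_image_of_mem _ (mem_univ _))
      refine hT ⟨fun x y e => ?_, hσ, fun b j hj e => ?_⟩
      · by_cases hx : x = b0 <;> by_cases hy : y = b0
        · rw [hx, hy]
        · subst hx
          exact absurd e.symm (c7 y _ hy)
        · subst hy
          exact absurd e (c7 x _ hx)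
        · exact c6 (by simpa using hx) (by simpa using hy) e
      · by_cases hb : b = b0
        · subst hb
          exact hj ((h.col _ _ _ _ e).symm.trans hσ)
        · exact c7 b j hb e
    refine prod_eq_zero (mem_univ v) ?_
    simp [hv1, hv2]

theorem coeff_eq_zero (h : T.Ok) (hα : T.TM b0 c0 α) (t0 : V → Bool)
    (hno : ∀ t : V → Bool, (∀ j, t (T.p b0 j) = t0 (T.p b0 j)) →
      ∃ b, b ≠ b0 ∧ t (T.p b (α b + 1)) = t (T.p b (α b + 2))) :
    ∑ σ with (α, σ) ∈ T.states b0 c0, ∏ b ∈ univ.erase b0, dsg (α b) (σ b) = 0 := by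
  classical
  let u : (V → Bool) → ℝ := fun t => ∏ v, (if v ∈ univ.image (T.p b0) then
    (if t v = t0 v then 1 else 0) else (if t v then 1 else -1) : ℝ)
  let D : B → Finset (Fin 3) := fun b => if b = b0 then {c0} else univ.erase (α b)
  have h1 : ∀ t : V → Bool, u t * ∏ b, ∑ j ∈ D b,
      (if b = b0 then 1 else dsg (α b) j * if t (T.p b j) then 1 else 0) = 0 := by
    intro t
    by_cases ht : ∀ j, t (T.p b0 j) = t0 (T.p b0 j)
    · obtain ⟨b, hb, e⟩ := hno t ht
      refine mul_eq_zero_of_right _ (prod_eq_zero (mem_univ b) ?_)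
      have : D b = {α b + 1, α b + 2} := by
        simp only [D, if_neg hb]
        generalize α b = j
        revert j
        decide
      rw [this, sum_pair (f3_ne12 _)]
      simp only [hb, dsg, e, (f3_ne12 _).symm, if_true, if_false]
      ring
    · push Not at ht
      obtain ⟨j, hj⟩ := ht
      refine mul_eq_zero_of_left (prod_eq_zero (mem_univ (T.p b0 j)) ?_) _
      simp [hj]
  have h2 := sum_eq_zero (s := univ) fun t _ => h1 t
  simp only [prod_univ_sum, mul_sum] at h2
  rw [sum_comm] at h2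
  rw [← h2, sum_filter, ← sum_subset (subset_univ (Fintype.piFinset D))]
  · refine sum_congr rfl fun σ hσ => ?_
    have h3 := Fintype.mem_piFinset.1 hσ
    have h4 : σ b0 = c0 := by simpa [D] using h3 b0
    have h5 : ∀ t : V → Bool, ∏ b, (if b = b0 then 1 else
        dsg (α b) (σ b) * if t (T.p b (σ b)) then 1 else 0) =
        (∏ b ∈ univ.erase b0, dsg (α b) (σ b)) *
          ∏ b ∈ univ.erase b0, (if t (T.p b (σ b)) then 1 else 0) := by
      intro t
      rw [← mul_prod_erase _ _ (mem_univ b0), if_pos rfl, one_mul, ← prod_mul_distrib]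
      exact prod_congr rfl fun b hb => if_neg (mem_erase.1 hb).1
    simp only [h5, mul_left_comm (u _), ← mul_sum]
    rw [tsum_eq h t0 h4]
    have h6 : (α, σ) ∈ T.states b0 c0 ↔ T.TM b0 c0 σ := by
      rw [mem_states]
      refine ⟨fun e => e.hs, fun e => ⟨hα, e, fun b hb => ?_⟩⟩
      have := h3 b
      simp only [D, if_neg hb] at this
      exact (mem_erase.1 this).1.symm
    simp only [h6, mul_ite, mul_one, mul_zero]
  · intro σ _ hσ
    refine if_neg fun e => hσ (Fintype.mem_piFinset.2 fun b => ?_)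
    have e : T.State b0 c0 α σ := mem_states.1 e
    by_cases hb : b = b0
    · simp [D, hb, e.hs.root]
    · simp [D, hb, (e.ne b hb).symm]

theorem ham_of_noBad (h : T.Ok) (hb : T.NoBad b0) (i0 : Fin 3) : ∃ c, c b0 = i0 ∧ T.Ham c := by
  classical
  by_contra hcon
  obtain ⟨φ, hφ⟩ := exists_flux h.conn (T.m (i0 + 1) b0)
  let s : ℝ := 1 / (∑ c, |φ c| + Fintype.card B + 1)
  have hM : 0 ≤ ∑ c, |φ c| := by positivity
  have hs1 : 0 < s := by positivity
  have hs2 : s * (∑ c, |φ c| + Fintype.card B + 1) = 1 := one_div_mul_cancel (by positivity)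
  have hs3 : 0 ≤ s * Fintype.card B := by positivity
  have hs4 : 0 ≤ s * ∑ c, |φ c| := by positivity
  let F : (B → Fin 3) × (B → Fin 3) → ℂ := fun x => ∏ b ∈ univ.erase b0,
    exp (((Real.pi / 2 * dsg (x.1 b) (x.2 b) - s * φ (b, x.1 b) : ℝ) : ℂ) * I)
  have hpos : 0 < (∑ x ∈ T.states b0 (i0 + 1), F x).re := by
    rw [← sum_fiberwise_of_maps_to (g := fun x => x.1 + x.2)
      (t := (T.states b0 (i0 + 1)).image (fun x => x.1 + x.2)) (fun x hx => mem_image_of_mem _ hx),
      re_sum]
    refine sum_pos (fun k hk => ?_) ?_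
    · obtain ⟨x, hx, rfl⟩ := mem_image.1 hk
      exact fibre_pos h (mem_states.1 hx) φ hφ s hs1 (by linarith) (by linarith)
    · obtain ⟨α, σ, hs⟩ := exists_state h hb (i0 + 1)
      exact ⟨_, mem_image_of_mem _ (mem_states (x := (α, σ)).2 hs)⟩
  have hzero : ∑ x ∈ T.states b0 (i0 + 1), F x = 0 := by
    rw [← univ_inter (T.states b0 (i0 + 1)), ← sum_ite_mem, Fintype.sum_prod_type]
    refine sum_eq_zero fun α _ => ?_
    by_cases hα : T.TM b0 (i0 + 1) α
    swap
    · exact sum_eq_zero fun σ _ => if_neg fun e => hα (mem_states.1 e).ha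
    have h1 := coeff_eq_zero h hα (fun v => decide (v = T.p b0 i0)) (by
      intro t ht
      by_contra hno
      push Not at hno
      have t0 : t (T.p b0 i0) = true := by simp [ht]
      have t1 : t (T.p b0 (i0 + 1)) = false := by
        simpa [ht] using fun e => f3_ne1 _ (h.col _ _ _ _ e)
      have t2 : t (T.p b0 (i0 + 2)) = false := by
        simpa [ht] using fun e => f3_ne2 _ (h.col _ _ _ _ e)
      obtain ⟨c, hc1, hc2⟩ := ham_of_colouring h hα t (fun b => by
        by_cases e : b = b0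
        · rw [e, hα.root, f3_11, f3_12, t0, t2]
          decide
        · exact hno b e)
      exact hcon ⟨c, hc2 b0 i0 (t1.trans t2.symm), hc1⟩)
    have h2 : ∀ σ, F (α, σ) = (∏ b ∈ univ.erase b0, (I * exp (((-s * φ (b, α b) : ℝ) : ℂ) * I))) *
        ((∏ b ∈ univ.erase b0, dsg (α b) (σ b) : ℝ) : ℂ) := by
      intro σ
      rw [ofReal_prod, ← prod_mul_distrib]
      refine prod_congr rfl fun b _ => ?_
      rw [sub_eq_add_neg, ofReal_add, add_mul, exp_add, ← neg_mul]
      have : exp (((Real.pi / 2 * dsg (α b) (σ b) : ℝ) : ℂ) * I) = I * dsg (α b) (σ b) := by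
        unfold dsg
        split_ifs
        · simp [exp_mul_I]
        · rw [exp_mul_I]
          simp
      rw [this]
      ring
    rw [← sum_filter]
    simp only [h2]
    rw [← mul_sum, ← ofReal_sum, h1]
    simp
  rw [hzero] at hpos
  simp at hpos

end Tri

end Crest.Agent.R39
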